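import Vale.Agent.P153.H212.Fun

/-!
P153, second form of the final statements: approximation of the marked domain.
-/

set_option autoImplicit false

namespace Vale.Agent.P153.H212

open MeasureTheory ProbabilityTheory Filter Topology Set Complex
open Vale.Agent.P153.R2

theorem curve_of_floor {n : ℕ} (p : ZMod n → ℤ × ℤ) (x : ℝ) (m : ℤ) (h1 : (m : ℝ) ≤ x)
    (h2 : x < m + 1) : curve p x = (1 - (x - m)) * pt (p m) + (x - m) * pt (p (m + 1)) := by
  have hf : ⌊x⌋ = m := Int.floor_eq_iff.2 ⟨h1, h2⟩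
  have hfr : Int.fract x = x - m := by rw [Int.fract, hf]
  rw [curve, hf, hfr]
  push_cast
  ring

/-- The curve is close to the vertex. -/
theorem dist_curve {n : ℕ} (p : ZMod n → ℤ × ℤ) (hp : ∀ i, Adj (p i) (p (i + 1))) (i : ℤ) (x : ℝ)
    (h1 : (i : ℝ) - 1 / 2 ≤ x) (h2 : x ≤ i + 1 / 2) : dist (curve p x) (pt (p i)) ≤ 1 / 2 := by
  rcases le_or_gt (i : ℝ) x with h | h
  · rw [curve_of_floor p x i h (by linarith), Complex.dist_eq]
    have e1 : (1 - ((x : ℂ) - i)) * pt (p i) + (x - i) * pt (p (i + 1)) - pt (p i) =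
        ((x - i : ℝ) : ℂ) * (pt (p (i + 1)) - pt (p i)) := by
      push_cast
      ring
    have e2 : ‖pt (p (i + 1)) - pt (p i)‖ = 1 := by
      rw [← Complex.dist_eq, dist_comm]
      exact hp i
    rw [e1, norm_mul, e2, mul_one, Complex.norm_real, Real.norm_eq_abs, abs_of_nonneg (by linarith)]
    linarith
  · have h3 : ((i - 1 : ℤ) : ℝ) ≤ x := by push_cast; linarith
    have h4 : x < ((i - 1 : ℤ) : ℝ) + 1 := by push_cast; linarith
    rw [curve_of_floor p x (i - 1) h3 h4, Complex.dist_eq]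
    have e0 : (((i - 1 : ℤ) : ZMod n) + 1) = i := by push_cast; ring
    rw [e0]
    have e1 : (1 - ((x : ℂ) - (i - 1 : ℤ))) * pt (p (i - 1 : ℤ)) + (x - (i - 1 : ℤ)) * pt (p i)
        - pt (p i) = ((i - x : ℝ) : ℂ) * (pt (p (i - 1 : ℤ)) - pt (p i)) := by
      push_cast
      ring
    have e2 : ‖pt (p (i - 1 : ℤ)) - pt (p i)‖ = 1 := by
      rw [← Complex.dist_eq]
      have := hp (i - 1 : ℤ)
      rw [e0] at this
      exact this
    rw [e1, norm_mul, e2, mul_one, Complex.norm_real, Real.norm_eq_abs, abs_of_nonneg (by linarith)]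
    linarith

/-- The times at which the vertices are reached. -/
theorem exists_times {τ : ℝ → ℝ} {N k : ℕ} (hc : Continuous τ) (hm : Monotone τ)
    (h0 : τ 0 = -1 / 2) (hk0 : 0 < k) (hkN : k < N) (hpi : τ Real.pi = k - 1 / 2)
    (h2 : τ (2 * Real.pi) = N - 1 / 2) :
    ∃ s : ℕ → ℝ, Monotone s ∧ s 0 = 0 ∧ s k = Real.pi ∧ s N = 2 * Real.pi ∧
      (∀ i ≤ N, s i ∈ Icc 0 (2 * Real.pi)) ∧
      ∀ i < N, ∀ t ∈ Icc (s i) (s (i + 1)), τ t ∈ Icc ((i : ℝ) - 1 / 2) (i + 1 / 2) := by
  have hpp := Real.pi_pos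
  have hex : ∀ i : ℕ, i ≤ N → ∃ t ∈ Icc 0 (2 * Real.pi), τ t = i - 1 / 2 := by
    intro i hi
    have := intermediate_value_Icc (a := 0) (b := 2 * Real.pi) (by positivity) hc.continuousOn
    have hi' : (i : ℝ) ≤ N := by exact_mod_cast hi
    obtain ⟨t, ht, ht2⟩ := this (show (i : ℝ) - 1 / 2 ∈ Icc (τ 0) (τ (2 * Real.pi)) by
      rw [h0, h2]
      constructor
      · have : (0 : ℝ) ≤ i := Nat.cast_nonneg i
        linarith
      · linarith)
    exact ⟨t, ht, ht2⟩
  classical
  let s : ℕ → ℝ := fun i => if i = 0 then 0 else if i = k then Real.pi else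
    if h : i < N then (hex i h.le).choose else 2 * Real.pi
  have hs : ∀ i ≤ N, s i ∈ Icc 0 (2 * Real.pi) ∧ τ (s i) = i - 1 / 2 := by
    intro i hi
    by_cases h1 : i = 0
    · subst h1
      have : s 0 = 0 := if_pos rfl
      rw [this, h0]
      exact ⟨⟨le_rfl, by positivity⟩, by norm_num⟩
    by_cases h3 : i = k
    · subst h3
      have : s i = Real.pi := by
        show (if i = 0 then (0 : ℝ) else if i = i then Real.pi else _) = _
        rw [if_neg h1, if_pos rfl]
      rw [this, hpi]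
      exact ⟨⟨hpp.le, by linarith⟩, rfl⟩
    by_cases h4 : i < N
    · have : s i = (hex i h4.le).choose := by
        show (if i = 0 then (0 : ℝ) else if i = k then Real.pi else _) = _
        rw [if_neg h1, if_neg h3, dif_pos h4]
      rw [this]
      exact (hex i h4.le).choose_spec
    · have h5 : i = N := by omega
      have : s i = 2 * Real.pi := by
        show (if i = 0 then (0 : ℝ) else if i = k then Real.pi else _) = _
        rw [if_neg h1, if_neg h3, dif_neg h4]
      rw [this, h2, h5]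
      exact ⟨⟨by positivity, le_rfl⟩, rfl⟩
  have hbig : ∀ i, N ≤ i → s i = 2 * Real.pi := by
    intro i hi
    show (if i = 0 then (0 : ℝ) else if i = k then Real.pi else _) = _
    rw [if_neg (by omega), if_neg (by omega), dif_neg (by omega)]
  have hmono : Monotone s := by
    refine monotone_nat_of_le_succ fun i => ?_
    rcases lt_or_ge i N with h | h
    · by_contra hlt
      have h5 := hm (not_le.1 hlt).le
      rw [(hs i h.le).2, (hs (i + 1) h).2] at h5
      push_cast at h5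
      linarith
    · rw [hbig i h, hbig (i + 1) (by omega)]
  refine ⟨s, hmono, if_pos rfl, ?_, hbig N le_rfl, fun i hi => (hs i hi).1, ?_⟩
  · show (if k = 0 then (0 : ℝ) else if k = k then Real.pi else _) = _
    rw [if_neg (by omega), if_pos rfl]
  · intro i hi t ht
    constructor
    · rw [← (hs i hi.le).2]
      exact hm ht.1
    · have := hm ht.2
      rw [(hs (i + 1) hi).2] at this
      push_cast at this
      linarith

theorem dist_e_le (z w : ℂ) : dist (e z) (e w) ≤ dist z w := by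
  rw [Prod.dist_eq, e_apply, e_apply]
  simp only [Real.dist_eq]
  refine max_le ?_ ?_
  · rw [← Complex.sub_re, Complex.dist_eq]
    exact Complex.abs_re_le_norm _
  · rw [← Complex.sub_im, Complex.dist_eq]
    exact Complex.abs_im_le_norm _

/-- The new notion of approximation implies the first one. -/
theorem converges {Φ : ℂ ≃ₜ ℂ} {δ : ℕ → ℝ} {N k : ℕ → ℕ} {p : ∀ n, ZMod (N n) → ℤ × ℤ}
    {S : ℕ → Finset (Finset (ℤ × ℤ))} (h : Approx Φ δ N k p S) :
    Final.Thm.Converges (real Φ) δ N k p (fun n => old (S n)) := by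
  obtain ⟨h1, h2, h3⟩ := h
  refine ⟨fun n => ⟨(h1 n).1, (h1 n).2.1, (h1 n).2.2.1, isPolygon (h1 n).2.2.2,
    encl_old (h1 n).2.2.2⟩, h2, fun ε hε => ?_⟩
  filter_upwards [h3 (ε / 2) (by positivity), h2.eventually (gt_mem_nhds hε)] with n hn hδ
  obtain ⟨τ, hc, hm, t0, t1, t2, ht⟩ := hn
  obtain ⟨hδ0, hk0, hkN, hE⟩ := h1 n
  obtain ⟨s, s1, s2, s3, s4, s5, s6⟩ := exists_times hc hm t0 hk0 hkN t1 t2
  refine ⟨s, s1, s2, s3, s4, fun i hi t hti => ?_⟩
  have ht0 : t ∈ Icc 0 (2 * Real.pi) := ⟨(s5 i hi.le).1.trans hti.1, hti.2.trans (s5 (i + 1) hi).2⟩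
  have hτ := s6 i hi t hti
  have hd := dist_curve (p n) hE.2.2.1 i (τ t) (by exact_mod_cast hτ.1) (by exact_mod_cast hτ.2)
  have e1 : δ n • Final.pt (p n i) = e (δ n * pt (p n i)) := by
    rw [← e_pt, ← map_smul]
    congr 1
  rw [e1, toC_real_circ]
  refine (dist_e_le _ _).trans_lt ?_
  have e2 : dist ((δ n : ℂ) * pt (p n i)) (δ n * curve (p n) (τ t)) ≤ δ n * (1 / 2) := by
    rw [Complex.dist_eq, ← mul_sub, norm_mul, Complex.norm_real, Real.norm_eq_abs,
      abs_of_pos hδ0, ← Complex.dist_eq, dist_comm]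
    refine mul_le_mul_of_nonneg_left ?_ hδ0.le
    rw [Int.cast_natCast] at hd
    exact hd
  calc dist ((δ n : ℂ) * pt (p n i)) (Φ (exp (t * I)))
      ≤ dist ((δ n : ℂ) * pt (p n i)) (δ n * curve (p n) (τ t)) +
        dist (δ n * curve (p n) (τ t)) (Φ (exp (t * I))) := dist_triangle _ _ _
    _ < ε := by linarith [ht t ht0]

end Vale.Agent.P153.H212
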