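import Vale.Agent.P153.H212.Fin

/-!
P153, second form of the final statements: centring.
-/

set_option autoImplicit false

namespace Vale.Agent.P153.H212

open MeasureTheory ProbabilityTheory Filter Topology Set
open Vale.Agent.P153.R2

/-- Centring by deterministic numbers which converge. -/
theorem center_of {μ : ℕ → Final.Law} {hL : ∀ i, Final.Prob (μ i)}
    {X : ℕ → (ℤ × ℤ → ℤ) → ℝ} {m v : ℝ} (h : Final.ToGauss atTop μ hL X m v) {a : ℕ → ℝ}
    (ha : Tendsto a atTop (𝓝 m)) : ToGauss atTop μ (fun n g => X n g - a n) 0 v := by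
  have hX : ∀ n, AEMeasurable (X n) (μ n) := h.2.forall_aemeasurable
  have H := (toGauss_of h).2.2
  refine ⟨hL, h.1, ?_⟩
  have hYm : ∀ n, AEMeasurable (fun g => X n g - a n) (μ n) := fun n => (hX n).sub_const _
  let ν : ℕ → ProbabilityMeasure ℝ := fun n =>
    ⟨(μ n).map (fun g => X n g - a n), Measure.isProbabilityMeasure_map (hYm n)⟩
  let ν' : ProbabilityMeasure ℝ := ⟨gaussianReal 0 v.toNNReal, inferInstance⟩
  have key : Tendsto ν atTop (𝓝 ν') := by
    refine tendsto_iff_forall_lipschitz_integral_tendsto.2 ?_
    rintro f ⟨C, hC⟩ ⟨L, hf⟩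
    have hfc : Continuous f := hf.continuous
    have hM : ∃ M, ∀ x, |f x| ≤ M := by
      refine ⟨C + |f 0|, fun x => ?_⟩
      have h1 := hC x 0
      rw [Real.dist_eq] at h1
      have h2 := abs_sub_abs_le_abs_sub (f x) (f 0)
      linarith
    have h1 := H (fun x => f (x - m)) (hfc.comp (continuous_id.sub continuous_const))
      (by obtain ⟨M, hM⟩ := hM; exact ⟨M, fun x => hM _⟩)
    have h2 : ∫ x, f (x - m) ∂gaussianReal m v.toNNReal = ∫ x, f x ∂gaussianReal 0 v.toNNReal := by
      have := gaussianReal_map_sub_const (μ := m) (v := v.toNNReal) m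
      rw [sub_self] at this
      rw [← this, integral_map (by fun_prop) hfc.aestronglyMeasurable]
    rw [h2] at h1
    have h3 : ∀ n, ∫ x, f x ∂((μ n).map (fun g => X n g - a n)) = ∫ g, f (X n g - a n) ∂μ n :=
      fun n => integral_map (hYm n) hfc.aestronglyMeasurable
    show Tendsto (fun n => ∫ x, f x ∂((μ n).map (fun g => X n g - a n))) atTop
      (𝓝 (∫ x, f x ∂gaussianReal 0 v.toNNReal))
    simp only [h3]
    have h4 : Tendsto (fun n => (∫ g, f (X n g - a n) ∂μ n) - ∫ g, f (X n g - m) ∂μ n) atTop
        (𝓝 0) := by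
      have hb : Tendsto (fun n => (L : ℝ) * |a n - m|) atTop (𝓝 0) := by
        have : Tendsto (fun n => |a n - m|) atTop (𝓝 0) := by
          have := (ha.sub_const m).abs
          simpa using this
        simpa using this.const_mul (L : ℝ)
      refine squeeze_zero_norm (fun n => ?_) hb
      obtain ⟨M, hM⟩ := hM
      have hp := hL n
      have i1 : Integrable (fun g => f (X n g - a n)) (μ n) := by
        refine Integrable.of_bound (hfc.measurable.comp_aemeasurable
          (hYm n)).aestronglyMeasurable M (ae_of_all _ fun g => ?_)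
        exact hM _
      have i2 : Integrable (fun g => f (X n g - m)) (μ n) := by
        refine Integrable.of_bound (hfc.measurable.comp_aemeasurable
          ((hX n).sub_const _)).aestronglyMeasurable M (ae_of_all _ fun g => ?_)
        exact hM _
      rw [← integral_sub i1 i2]
      have := norm_integral_le_of_norm_le_const (μ := μ n)
        (f := fun g => f (X n g - a n) - f (X n g - m)) (C := (L : ℝ) * |a n - m|)
        (ae_of_all _ fun g => ?_)
      · simpa using this
      · rw [← dist_eq_norm]
        refine (hf.dist_le_mul _ _).trans (mul_le_mul_of_nonneg_left ?_ L.2)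
        rw [Real.dist_eq]
        have : X n g - a n - (X n g - m) = -(a n - m) := by ring
        rw [this, abs_neg]
    have h5 := h4.add h1
    rw [zero_add] at h5
    refine h5.congr fun n => ?_
    ring
  intro F hF hM
  obtain ⟨M, hM⟩ := hM
  let f : BoundedContinuousFunction ℝ ℝ :=
    BoundedContinuousFunction.ofNormedAddCommGroup F hF M hM
  have h1 := (ProbabilityMeasure.tendsto_iff_forall_integral_tendsto.1 key) f
  have h2 : ∀ n, ∫ x, f x ∂((μ n).map (fun g => X n g - a n)) = ∫ g, F (X n g - a n) ∂μ n :=
    fun n => integral_map (hYm n) hF.aestronglyMeasurable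
  exact h1.congr h2

end Vale.Agent.P153.H212
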