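import Mathlib

/-!
Uniform odd heights on the triangular lattice, in the complex plane: the definitions.
-/

set_option autoImplicit false

namespace Vale.Agent.P153.H212

open MeasureTheory ProbabilityTheory Filter Topology Set Complex

/-! ### The lattice -/

/-- The vertex `v.1 + v.2 e^{iπ/3}` of the triangular lattice. -/
noncomputable def pt (v : ℤ × ℤ) : ℂ := v.1 + v.2 * (1 / 2 + √3 / 2 * I)

/-- Two vertices are adjacent if they are at distance `1`. -/
def Adj (v w : ℤ × ℤ) : Prop := dist (pt v) (pt w) = 1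

/-- `p 0, p 1, …, p (n - 1), p 0` is a simple closed lattice polygon, and `S` is the set of the
lattice triangles (three mutually adjacent vertices) enclosed by it: the edges of the polygon are
exactly the edges of the lattice which are sides of exactly one triangle of `S`. -/
def Encloses {n : ℕ} (p : ZMod n → ℤ × ℤ) (S : Finset (Finset (ℤ × ℤ))) : Prop :=
  2 < n ∧ Function.Injective p ∧ (∀ i, Adj (p i) (p (i + 1))) ∧
    (∀ t ∈ S, t.card = 3 ∧ (t : Set (ℤ × ℤ)).Pairwise Adj) ∧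
    ∀ v w, Adj v w → ((∃ i, s(p i, p (i + 1)) = s(v, w)) ↔ ∃! t, t ∈ S ∧ v ∈ t ∧ w ∈ t)

/-- The closed polygonal curve through `p 0, p 1, …, p (n - 1), p 0`. -/
noncomputable def curve {n : ℕ} (p : ZMod n → ℤ × ℤ) (x : ℝ) : ℂ :=
  (1 - Int.fract x) * pt (p ⌊x⌋) + Int.fract x * pt (p (⌊x⌋ + 1))

/-- The vertices of the domain. -/
def verts (S : Finset (Finset (ℤ × ℤ))) : Finset (ℤ × ℤ) := S.biUnion id

/-- The heights of the domain enclosed by `p`: odd, with `|h v - h w| ∈ {0, 2}` for adjacent `v`,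
`w`, and with `h (p i) ∈ B i` at the boundary vertices (and the dummy value `0` off the domain). -/
def Heights {n : ℕ} (p : ZMod n → ℤ × ℤ) (S : Finset (Finset (ℤ × ℤ))) (B : ZMod n → Set ℤ) :
    Set (ℤ × ℤ → ℤ) :=
  {h | (∀ v ∈ verts S, Odd (h v)) ∧ (∀ i, h (p i) ∈ B i) ∧
    (∀ v ∈ verts S, ∀ w ∈ verts S, Adj v w → |h v - h w| ∈ ({0, 2} : Set ℤ)) ∧
    ∀ v, v ∉ verts S → h v = 0}

/-- The boundary value `1` at `p 0, …, p (k - 1)` and `-1` at `p k, …, p (n - 1)`. -/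
def arcs {n : ℕ} (k : ℕ) (i : ZMod n) : Set ℤ := if i.val < k then {1} else {-1}

/-- Free boundary values `±1`. -/
def free {n : ℕ} (_ : ZMod n) : Set ℤ := {1, -1}

/-- The law of the uniform heights. -/
noncomputable def law {n : ℕ} (p : ZMod n → ℤ × ℤ) (S : Finset (Finset (ℤ × ℤ)))
    (B : ZMod n → Set ℤ) : Measure (ℤ × ℤ → ℤ) := uniformOn (Heights p S B)

/-! ### The scaled lattice -/

/-- The hat function of the vertex `0`: `1` at `0`, `0` at the other vertices, affine on the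
triangles. -/
noncomputable def hat (z : ℂ) : ℝ :=
  max 0 (1 - max |z.re - z.im / √3| (max |2 * z.im / √3| |z.re + z.im / √3|))

/-- The extension of `h` to the plane, affine on each triangle. -/
noncomputable def ext (h : ℤ × ℤ → ℤ) (z : ℂ) : ℝ := ∑ᶠ v : ℤ × ℤ, h v * hat (z - pt v)

/-- The closed domain `D_δ`: the union of the enclosed triangles of the lattice of mesh `δ`. -/
def region (δ : ℝ) (S : Finset (Finset (ℤ × ℤ))) : Set ℂ :=
  ⋃ t ∈ S, convexHull ℝ ((fun v => δ * pt v) '' (t : Set (ℤ × ℤ)))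

/-- `h_δ(φ) = ∫ h_δ(z) φ(z) dz`, the integral over `D_δ`. -/
noncomputable def fld (S : Finset (Finset (ℤ × ℤ))) (δ : ℝ) (φ : ℂ → ℝ) (h : ℤ × ℤ → ℤ) : ℝ :=
  ∫ z in region δ S, ext h (z / δ) * φ z

/-! ### Marked Jordan domains and their approximation -/

/-- The Jordan domain `D`: the image of the open unit disc under a homeomorphism `Φ` of the plane.
It is marked at the boundary points `a = Φ 1` and `b = Φ (-1)`. -/
def dom (Φ : ℂ ≃ₜ ℂ) : Set ℂ := Φ '' Metric.ball 0 1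

/-- The open boundary arc `A_+`, from `a` to `b`. -/
def arcPlus (Φ : ℂ ≃ₜ ℂ) : Set ℂ := Φ '' {z | ‖z‖ = 1 ∧ 0 < z.im}

/-- The open boundary arc `A_-`, from `b` to `a`. -/
def arcMinus (Φ : ℂ ≃ₜ ℂ) : Set ℂ := Φ '' {z | ‖z‖ = 1 ∧ z.im < 0}

/-- Lattice domains of mesh `δ n → 0`, enclosed by the polygons `p n` with `N n` vertices, marked
at the midpoints of the boundary edges `p (-1) p 0` and `p (k - 1) p k`, approximate the marked
domain `(D; a, b)`: the marked boundary curves converge uniformly modulo reparametrization. -/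
def Approx (Φ : ℂ ≃ₜ ℂ) (δ : ℕ → ℝ) (N k : ℕ → ℕ) (p : ∀ n, ZMod (N n) → ℤ × ℤ)
    (S : ℕ → Finset (Finset (ℤ × ℤ))) : Prop :=
  (∀ n, 0 < δ n ∧ 0 < k n ∧ k n < N n ∧ Encloses (p n) (S n)) ∧ Tendsto δ atTop (𝓝 0) ∧
  ∀ ε > 0, ∀ᶠ n in atTop, ∃ τ : ℝ → ℝ, Continuous τ ∧ Monotone τ ∧ τ 0 = -1 / 2 ∧
    τ Real.pi = k n - 1 / 2 ∧ τ (2 * Real.pi) = N n - 1 / 2 ∧
    ∀ t ∈ Icc 0 (2 * Real.pi), dist (δ n * curve (p n) (τ t)) (Φ (exp (t * I))) < ε

/-! ### The limit field -/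

/-- Smooth real functions with compact support contained in `D`. -/
def TestOn (D : Set ℂ) (φ : ℂ → ℝ) : Prop :=
  ContDiff ℝ ((⊤ : ℕ∞) : WithTop ℕ∞) φ ∧ HasCompactSupport φ ∧ tsupport φ ⊆ D

/-- `⟨φ, (-Δ_D)⁻¹ φ⟩ = sup_ψ (2 ∫ φ ψ - ∫ |∇ψ|²)`, `ψ` smooth with compact support in `D`. -/
noncomputable def V (D : Set ℂ) (φ : ℂ → ℝ) : ℝ :=
  ⨆ ψ : {ψ // TestOn D ψ}, (2 * ∫ z, φ z * ψ.1 z) - ∫ z, ‖fderiv ℝ ψ.1 z‖ ^ 2

/-- `u` is the bounded harmonic function on `D` with the boundary values `1` on `A_+` and `-1` on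
`A_-`. -/
def IsHarm (Φ : ℂ ≃ₜ ℂ) (u : ℂ → ℝ) : Prop :=
  InnerProductSpace.HarmonicOnNhd u (dom Φ) ∧ (∀ z ∈ dom Φ, |u z| ≤ 1) ∧
    (∀ x ∈ arcPlus Φ, Tendsto u (𝓝[dom Φ] x) (𝓝 1)) ∧
    ∀ x ∈ arcMinus Φ, Tendsto u (𝓝[dom Φ] x) (𝓝 (-1))

/-- Convergence in law of the random variables `X i` (under the probability measures `μ i`) to the
Gaussian law with mean `m` and variance `v`. -/
def ToGauss {ι : Type} (l : Filter ι) (μ : ι → Measure (ℤ × ℤ → ℤ))
    (X : ι → (ℤ × ℤ → ℤ) → ℝ) (m v : ℝ) : Prop :=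
  (∀ i, IsProbabilityMeasure (μ i)) ∧ 0 ≤ v ∧ ∀ F : ℝ → ℝ, Continuous F → (∃ M, ∀ x, |F x| ≤ M) →
    Tendsto (fun i => ∫ h, F (X i h) ∂μ i) l (𝓝 (∫ x, F x ∂gaussianReal m v.toNNReal))

/-! ### The interface -/

/-- `γ` is the interface of `h`: a simple curve in the zero set of `h_δ` in the closed domain
`D_δ`, from the midpoint of the edge `p (-1) p 0` to the midpoint of the edge `p (k - 1) p k`. -/
def IsInterface {n : ℕ} (p : ZMod n → ℤ × ℤ) (k : ℕ) (S : Finset (Finset (ℤ × ℤ))) (δ : ℝ)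
    (h : ℤ × ℤ → ℤ) (γ : C(unitInterval, ℂ)) : Prop :=
  Function.Injective γ ∧ γ 0 = δ * curve p (-1 / 2) ∧ γ 1 = δ * curve p (k - 1 / 2) ∧
    ∀ t, γ t ∈ region δ S ∧ ext h (γ t / δ) = 0

/-- `γ` is a simple curve in the closed upper half-plane, starting on the real line and then in the
open half-plane, which generates the chordal Loewner chain driven by `W`: for every `t`, the set of
the points `z` from which the Loewner equation `g' = 2 / (g - W)`, `g 0 = z`, can be solved on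
`[0, t]` is the half-plane minus `γ (0, t]`. -/
def IsTrace (W : ℝ → ℝ) (γ : ℝ → ℂ) : Prop :=
  ContinuousOn γ (Ici 0) ∧ InjOn γ (Ici 0) ∧ γ 0 = W 0 ∧ (∀ t : ℝ, 0 < t → 0 < (γ t).im) ∧
  ∀ t : ℝ, 0 ≤ t →
    {z : ℂ | ∃ g : ℝ → ℂ, g 0 = z ∧ ∀ s ∈ Icc 0 t, 0 < (g s).im ∧
      HasDerivWithinAt g (2 / (g s - W s)) (Icc 0 t) s} = {z : ℂ | 0 < z.im} \ γ '' Ioc 0 t

/-- `γ` is the trace of chordal `SLE_κ` in the upper half-plane, from `0` to `∞` (`κ ≤ 4`): the
driving function is `√κ` times a standard Brownian motion. -/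
def IsSLE {Ω : Type} [MeasurableSpace Ω] (κ : ℝ) (P : Measure Ω) (γ : Ω → ℝ → ℂ) : Prop :=
  ∃ B : NNReal → Ω → ℝ, IsBrownianReal B P ∧
    ∀ᵐ ω ∂P, IsTrace (fun t => √κ * B t.toNNReal ω) (γ ω)

/-- `ψ` is a conformal map from the upper half-plane onto `D`, extended continuously to the
boundary, which takes `0` to `a` and `∞` to `b`. -/
def IsConformal (Φ : ℂ ≃ₜ ℂ) (ψ : ℂ → ℂ) : Prop :=
  DifferentiableOn ℂ ψ {z | 0 < z.im} ∧ BijOn ψ {z | 0 < z.im} (dom Φ) ∧
    ContinuousOn ψ {z | 0 ≤ z.im} ∧ ψ 0 = Φ 1 ∧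
    Tendsto ψ (Bornology.cobounded ℂ ⊓ 𝓟 {z | 0 ≤ z.im}) (𝓝 (Φ (-1)))

/-! ### The theorems -/

/-- Every marked Jordan domain has such approximations, for every sequence of meshes. -/
def Existence : Prop :=
  ∀ (Φ : ℂ ≃ₜ ℂ) (δ : ℕ → ℝ), (∀ n, 0 < δ n) → Tendsto δ atTop (𝓝 0) →
    ∃ (N k : ℕ → ℕ) (p : ∀ n, ZMod (N n) → ℤ × ℤ) (S : ℕ → Finset (Finset (ℤ × ℤ))),
      Approx Φ δ N k p S

/-- The field theorem: for every marked Jordan domain `(D; a, b)`, every approximation of it and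
every test function `φ`: for the uniform heights `h_δ` with the boundary values `±1` on the two
arcs, `E h_δ(φ) → ∫ u φ` and `h_δ(φ) - E h_δ(φ)` converges in law to the Gaussian law with variance
`(8/π) ⟨φ, (-Δ_D)⁻¹ φ⟩` (hence, by linearity, the vectors of finitely many of these variables
converge), and this variance is positive for `φ ≠ 0`. The same Gaussian limit holds for the heights
with free boundary values `±1`. -/
def FieldTheorem : Prop :=
  ∀ Φ : ℂ ≃ₜ ℂ, ∃ u : ℂ → ℝ, IsHarm Φ u ∧ (∀ u', IsHarm Φ u' → EqOn u' u (dom Φ)) ∧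
    ∀ (δ : ℕ → ℝ) (N k : ℕ → ℕ) (p : ∀ n, ZMod (N n) → ℤ × ℤ)
      (S : ℕ → Finset (Finset (ℤ × ℤ))), Approx Φ δ N k p S → ∀ φ, TestOn (dom Φ) φ →
      (φ ≠ 0 → 0 < V (dom Φ) φ) ∧
      Tendsto (fun n => ∫ h, fld (S n) (δ n) φ h ∂law (p n) (S n) (arcs (k n))) atTop
        (𝓝 (∫ z, u z * φ z)) ∧
      ToGauss atTop (fun n => law (p n) (S n) (arcs (k n)))
        (fun n h => fld (S n) (δ n) φ h -
          ∫ g, fld (S n) (δ n) φ g ∂law (p n) (S n) (arcs (k n)))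
        0 (8 / Real.pi * V (dom Φ) φ) ∧
      ToGauss atTop (fun n => law (p n) (S n) free) (fun n => fld (S n) (δ n) φ)
        0 (8 / Real.pi * V (dom Φ) φ)

/-- The curve theorem: there is a chordal `SLE_4` trace `γ` in the upper half-plane such that for
every marked Jordan domain `(D; a, b)` there is a conformal map `ψ` from the upper half-plane onto
`(D; a, b)`, and for every such `ψ` and every approximation of `(D; a, b)` the interfaces exist and
converge in law to the chordal `SLE_4` curve `ψ ∘ γ` of `(D; a, b)`, in the uniform metric modulo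
increasing reparametrization: the expectations of all bounded continuous functions `F` of the curve
which are invariant under increasing reparametrization converge. -/
def CurveTheorem : Prop :=
  ∃ (Ω : Type) (_ : MeasurableSpace Ω) (P : Measure Ω) (γ : Ω → ℝ → ℂ),
    IsProbabilityMeasure P ∧ IsSLE 4 P γ ∧
    ∀ Φ : ℂ ≃ₜ ℂ, (∃ ψ, IsConformal Φ ψ) ∧ ∀ ψ, IsConformal Φ ψ →
      ∃ G : Ω → C(unitInterval, ℂ),
        (∀ᵐ ω ∂P, G ω 1 = Φ (-1) ∧
          ∀ t : unitInterval, (t : ℝ) < 1 → G ω t = ψ (γ ω (t / (1 - t)))) ∧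
        (∀ F : C(unitInterval, ℂ) → ℝ, Continuous F → AEMeasurable (fun ω => F (G ω)) P) ∧
        ∀ (δ : ℕ → ℝ) (N k : ℕ → ℕ) (p : ∀ n, ZMod (N n) → ℤ × ℤ)
          (S : ℕ → Finset (Finset (ℤ × ℤ))), Approx Φ δ N k p S →
          (∀ n, ∀ h ∈ Heights (p n) (S n) (arcs (k n)), ∃ c,
            IsInterface (p n) (k n) (S n) (δ n) h c) ∧
          ∀ c : ∀ _ : ℕ, (ℤ × ℤ → ℤ) → C(unitInterval, ℂ),
            (∀ n, ∀ h ∈ Heights (p n) (S n) (arcs (k n)),
              IsInterface (p n) (k n) (S n) (δ n) h (c n h)) →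
            ∀ F : C(unitInterval, ℂ) → ℝ, Continuous F → (∃ M, ∀ x, |F x| ≤ M) →
              (∀ (x : C(unitInterval, ℂ)) (σ : C(unitInterval, unitInterval)), StrictMono σ →
                Function.Surjective σ → F (x.comp σ) = F x) →
              Tendsto (fun n => ∫ h, F (c n h) ∂law (p n) (S n) (arcs (k n))) atTop
                (𝓝 (∫ ω, F (G ω) ∂P))

/-- The complement of the finite set `D` of vertices is connected. -/
def CoConnected (D : Finset (ℤ × ℤ)) : Prop :=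
  ∀ v w, v ∉ D → w ∉ D → Relation.ReflTransGen (fun x y => Adj x y ∧ y ∉ D) v w

/-- The odd heights on `D` with `|h v - h w| ∈ {0, 2}` for adjacent `v`, `w` and with the value `1`
or `-1` at the boundary vertices (and the dummy value `-1` off `D`). -/
def HeightsOn (D : Finset (ℤ × ℤ)) : Set (ℤ × ℤ → ℤ) :=
  {h | (∀ v, Odd (h v)) ∧ (∀ v ∈ D, ∀ w ∈ D, Adj v w → |h v - h w| ∈ ({0, 2} : Set ℤ)) ∧
    (∀ v ∈ D, (∃ w, Adj v w ∧ w ∉ D) → h v = 1 ∨ h v = -1) ∧ ∀ v, v ∉ D → h v = -1}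

/-- The exact constants in infinite volume: there is a law `P` of random heights in the whole
plane, the limit modulo constants of the uniform heights on all exhausting sequences of finite
domains with connected complement, with `E (h v - h 0)² ~ (8 / π²) log |v|`, and its scaling limit
is `√(8/π)` times the Gaussian free field of the plane (modulo constants). -/
def PlaneTheorem : Prop :=
  ∃ P : Measure (ℤ × ℤ → ℤ), IsProbabilityMeasure P ∧
    (∀ D : ℕ → Finset (ℤ × ℤ), (∀ n, CoConnected (D n)) → (∀ v, ∀ᶠ n in atTop, v ∈ D n) →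
      ∀ (B : Finset (ℤ × ℤ)) (a : ℤ × ℤ → ℤ),
        Tendsto (fun n => ((HeightsOn (D n) ∩
          {h | ∀ v ∈ B, ∀ w ∈ B, h v - h w = a v - a w}).ncard : ℝ) / (HeightsOn (D n)).ncard) atTop
          (𝓝 (P.real {h | ∀ v ∈ B, ∀ w ∈ B, h v - h w = a v - a w}))) ∧
    Tendsto (fun v => (∫ h, ((h v - h 0 : ℤ) : ℝ) ^ 2 ∂P) / Real.log ‖pt v‖) cofinite
      (𝓝 (8 / Real.pi ^ 2)) ∧
    ∀ φ, TestOn univ φ → ∫ z, φ z = 0 →
      ToGauss (𝓝[>] 0) (fun _ => P) (fun (δ : ℝ) h => ∫ z, ext h (z / δ) * φ z)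
        0 (8 / Real.pi * ∫ z, ∫ w, -(2 * Real.pi)⁻¹ * Real.log ‖z - w‖ * φ z * φ w)

end Vale.Agent.P153.H212
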