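import Vale.Agent.P153.H212.Par
import Vale.Agent.P153.H212.PosO

/-!
P153, second form of the final statements: every marked Jordan domain has approximations, for all
sequences of meshes (from the square lattice, by a linear map).
-/

set_option autoImplicit false

namespace Vale.Agent.P153.H212

open Filter Topology Set Complex
open Vale.Agent.P153.R2

/-! ### The linear map -/

/-- The linear map which takes the square lattice to the triangular lattice. -/
noncomputable def A : ℂ ≃L[ℝ] ℂ := LinearEquiv.toContinuousLinearEquiv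
  { toFun := fun z => z.re + z.im * (1 / 2 + √3 / 2 * I)
    map_add' := fun z w => by
      simp only [Complex.add_re, Complex.add_im]
      push_cast
      ring
    map_smul' := fun r z => by
      simp only [Complex.real_smul, Complex.re_ofReal_mul, Complex.im_ofReal_mul,
        RingHom.id_apply]
      push_cast
      ring
    invFun := fun w => ⟨w.re - w.im / √3, 2 * w.im / √3⟩
    left_inv := fun z => by
      have h3 : √3 ≠ 0 := by positivity
      apply Complex.ext
      · simp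
        field_simp
        ring
      · simp
        field_simp
    right_inv := fun w => by
      have h3 : √3 ≠ 0 := by positivity
      apply Complex.ext
      · simp
        field_simp
        ring
      · simp
        field_simp }

theorem A_apply (z : ℂ) : A z = z.re + z.im * (1 / 2 + √3 / 2 * I) := rfl

theorem A_pt (v : ℤ × ℤ) : A (P167.E6.pt v) = pt v := by
  rw [A_apply, P167.E6.pt, pt]
  simp

theorem norm_A (z : ℂ) : ‖A z‖ ≤ 2 * ‖z‖ := by
  have h3 : √3 * √3 = 3 := Real.mul_self_sqrt (by norm_num)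
  have h1 : ‖((1 : ℂ) / 2 + √3 / 2 * I)‖ = 1 := by
    rw [← Real.sqrt_sq (norm_nonneg _), ← Complex.normSq_eq_norm_sq, Complex.normSq_apply,
      Real.sqrt_eq_one]
    simp
    nlinarith
  rw [A_apply]
  refine (norm_add_le _ _).trans ?_
  rw [norm_mul, h1, mul_one, Complex.norm_real, Complex.norm_real, Real.norm_eq_abs,
    Real.norm_eq_abs]
  linarith [Complex.abs_re_le_norm z, Complex.abs_im_le_norm z]

/-! ### The domain -/

open Classical in
/-- The triangles of the squares in `S`. -/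
noncomputable def cut (S : Finset (ℤ × ℤ)) : Finset (Finset (ℤ × ℤ)) :=
  (S ×ˢ (Finset.univ : Finset Bool)).image Final.corners

theorem mem_cut (S : Finset (ℤ × ℤ)) (T : Final.Tri) :
    Final.corners T ∈ cut S ↔ T ∈ S ×ˢ (Finset.univ : Finset Bool) := by
  rw [cut, Finset.mem_image]
  constructor
  · rintro ⟨T', h1, h2⟩
    rwa [← corners_inj h2]
  · intro h
    exact ⟨T, h, rfl⟩

theorem exu_cut (S : Finset (ℤ × ℤ)) (a b : ℤ × ℤ) :
    (∃! t, t ∈ cut S ∧ a ∈ t ∧ b ∈ t) ↔
      ∃! t, t ∈ S ×ˢ (Finset.univ : Finset Bool) ∧ (a ∈ Final.corners t ∧ b ∈ Final.corners t) := by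
  constructor
  · rintro ⟨t, ⟨h1, h2, h3⟩, h4⟩
    obtain ⟨T, hT, rfl⟩ := Finset.mem_image.1 h1
    refine ⟨T, ⟨hT, h2, h3⟩, ?_⟩
    rintro T' ⟨k1, k2, k3⟩
    exact corners_inj (h4 _ ⟨(mem_cut S T').2 k1, k2, k3⟩)
  · rintro ⟨T, ⟨h1, h2, h3⟩, h4⟩
    refine ⟨Final.corners T, ⟨(mem_cut S T).2 h1, h2, h3⟩, ?_⟩
    rintro t ⟨k1, k2, k3⟩
    obtain ⟨T', hT, rfl⟩ := Finset.mem_image.1 k1
    rw [h4 T' ⟨hT, k2, k3⟩]

theorem tris_cut (S : Finset (ℤ × ℤ)) : Tris (cut S) := by
  intro t ht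
  obtain ⟨⟨⟨a, b⟩, c⟩, -, rfl⟩ := Finset.mem_image.1 ht
  refine ⟨card_corners _, ?_⟩
  intro x hx y hy hxy
  obtain ⟨x1, x2⟩ := x
  obtain ⟨y1, y2⟩ := y
  rw [adj_int]
  cases c <;> simp [Final.corners] at hx hy hxy <;>
  rcases hx with hx | hx | hx <;> rcases hy with hy | hy | hy <;>
  obtain ⟨rfl, rfl⟩ := hx <;> obtain ⟨rfl, rfl⟩ := hy <;> first | (exfalso; omega) | ring

theorem adj_symm {v w : ℤ × ℤ} (h : Adj v w) : Adj w v := by
  rw [Adj, dist_comm]
  exact h

theorem adj_dir (v : ℤ × ℤ) (r : Fin 4) : Adj v (v + P167.E6.dir r) := by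
  rw [adj_int]
  fin_cases r <;> simp [P167.E6.dir]

theorem edge_iff {n : ℕ} {p : ZMod n → ℤ × ℤ} (a b : ℤ × ℤ) :
    (∃ i, s(p i, p (i + 1)) = s(a, b)) ↔
      (∃ i, p i = a ∧ p (i + 1) = b) ∨ ∃ i, p i = b ∧ p (i + 1) = a := by
  simp only [Sym2.eq_iff]
  exact exists_or

theorem encloses_cut {n : ℕ} {p : ZMod n → ℤ × ℤ} {S : Finset (ℤ × ℤ)}
    (hp : P167.E6.IsPolygon p) (h : P167.E6.Encloses p S) : Encloses p (cut S) := by
  refine ⟨hp.1, hp.2.1, fun i => ?_, tris_cut S, ?_⟩
  · obtain ⟨r, hr⟩ := hp.2.2 i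
    rw [hr]
    exact adj_dir _ _
  -- the three kinds of edges
  have k1 : ∀ v, ((∃ i, s(p i, p (i + 1)) = s(v, v + (1, 0))) ↔
      ∃! t, t ∈ cut S ∧ v ∈ t ∧ v + (1, 0) ∈ t) := by
    intro v
    rw [exu_cut]
    simp only [cor1]
    rw [exu (by simp), edge_iff]
    have a1 := h v 0
    have a2 := h (v + (1, 0)) 2
    have e1 : v + P167.E6.dir 0 = v + (1, 0) := rfl
    have e2 : v + (1, 0) + P167.E6.dir 2 = v := by
      simp [P167.E6.dir, add_assoc]
    have e3 : P167.E6.face v 0 = v := by simp [P167.E6.face]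
    have e4 : P167.E6.face v (0 - 1) = v - (0, 1) := by
      show v + (0, -1) = v - (0, 1)
      ext <;> simp <;> ring
    have e5 : P167.E6.face (v + (1, 0)) 2 = v - (0, 1) := by
      show v + (1, 0) + (-1, -1) = v - (0, 1)
      ext <;> simp <;> ring
    have e6 : P167.E6.face (v + (1, 0)) (2 - 1) = v := by
      show v + (1, 0) + (-1, 0) = v
      ext <;> simp
    rw [e1, e3, e4] at a1
    rw [e2, e5, e6] at a2
    rw [a1, a2]
    simp only [Finset.mem_product, Finset.mem_univ, and_true]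
    tauto
  have k2 : ∀ v, ((∃ i, s(p i, p (i + 1)) = s(v, v + (0, 1))) ↔
      ∃! t, t ∈ cut S ∧ v ∈ t ∧ v + (0, 1) ∈ t) := by
    intro v
    rw [exu_cut]
    simp only [cor2]
    rw [exu (by simp), edge_iff]
    have a1 := h v 1
    have a2 := h (v + (0, 1)) 3
    have e1 : v + P167.E6.dir 1 = v + (0, 1) := rfl
    have e2 : v + (0, 1) + P167.E6.dir 3 = v := by
      simp [P167.E6.dir, add_assoc]
    have e3 : P167.E6.face v 1 = v - (1, 0) := by
      show v + (-1, 0) = v - (1, 0)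
      ext <;> simp <;> ring
    have e4 : P167.E6.face v (1 - 1) = v := by
      show v + (0, 0) = v
      ext <;> simp
    have e5 : P167.E6.face (v + (0, 1)) 3 = v := by
      show v + (0, 1) + (0, -1) = v
      ext <;> simp
    have e6 : P167.E6.face (v + (0, 1)) (3 - 1) = v - (1, 0) := by
      show v + (0, 1) + (-1, -1) = v - (1, 0)
      ext <;> simp <;> ring
    rw [e1, e3, e4] at a1
    rw [e2, e5, e6] at a2
    rw [a1, a2]
    simp only [Finset.mem_product, Finset.mem_univ, and_true]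
    tauto
  have k3 : ∀ v, ((∃ i, s(p i, p (i + 1)) = s(v + (1, 0), v + (0, 1))) ↔
      ∃! t, t ∈ cut S ∧ v + (1, 0) ∈ t ∧ v + (0, 1) ∈ t) := by
    intro v
    rw [exu_cut]
    simp only [cor3]
    rw [exu (by simp), edge_iff]
    simp only [Finset.mem_product, Finset.mem_univ, and_true, not_true_eq_false, iff_false]
    rintro (⟨i, h1, h2⟩ | ⟨i, h1, h2⟩)
    · obtain ⟨r, hr⟩ := hp.2.2 i
      rw [h1, h2] at hr
      have c1 := congrArg Prod.fst hr
      have c2 := congrArg Prod.snd hr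
      fin_cases r <;> simp [P167.E6.dir] at c1 c2 <;> omega
    · obtain ⟨r, hr⟩ := hp.2.2 i
      rw [h1, h2] at hr
      have c1 := congrArg Prod.fst hr
      have c2 := congrArg Prod.snd hr
      fin_cases r <;> simp [P167.E6.dir] at c1 c2 <;> omega
  have sw : ∀ a b : ℤ × ℤ, ((∃ i, s(p i, p (i + 1)) = s(a, b)) ↔
      ∃! t, t ∈ cut S ∧ a ∈ t ∧ b ∈ t) → ((∃ i, s(p i, p (i + 1)) = s(b, a)) ↔
      ∃! t, t ∈ cut S ∧ b ∈ t ∧ a ∈ t) := by
    intro a b hab
    rw [Sym2.eq_swap, hab]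
    simp only [and_comm]
  intro v w hvw
  obtain ⟨v1, v2⟩ := v
  obtain ⟨w1, w2⟩ := w
  rcases adj6 hvw with h1 | h1 | h1 | h1 | h1 | h1 <;> simp only at h1 <;> rw [h1.1, h1.2]
  · have := k1 (v1, v2)
    simpa using this
  · have := sw _ _ (k1 (v1 - 1, v2))
    simpa using this
  · have := k2 (v1, v2)
    simpa using this
  · have := sw _ _ (k2 (v1, v2 - 1))
    simpa using this
  · have := sw _ _ (k3 (v1, v2 - 1))
    simpa using this
  · have := k3 (v1 - 1, v2)
    simpa using this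

/-! ### The reversed polygon -/

theorem Encloses.rev {n : ℕ} {p : ZMod n → ℤ × ℤ} {S : Finset (Finset (ℤ × ℤ))}
    (h : Encloses p S) : Encloses (fun i => p (-1 - i)) S := by
  obtain ⟨h1, h2, h3, h4, h5⟩ := h
  refine ⟨h1, fun i j hij => ?_, fun i => ?_, h4, fun v w hvw => ?_⟩
  · have := h2 hij
    exact sub_right_injective this
  · have := h3 (-1 - (i + 1))
    have e1 : (-1 - (i + 1) + 1 : ZMod n) = -1 - i := by ring
    rw [e1] at this
    exact adj_symm this
  · rw [← h5 v w hvw]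
    constructor
    · rintro ⟨i, hi⟩
      refine ⟨-1 - (i + 1), ?_⟩
      have e1 : (-1 - (i + 1) + 1 : ZMod n) = -1 - i := by ring
      rw [e1, Sym2.eq_swap]
      exact hi
    · rintro ⟨i, hi⟩
      refine ⟨-1 - (i + 1), ?_⟩
      have e1 : (-1 - (-1 - (i + 1)) : ZMod n) = i + 1 := by ring
      have e2 : (-1 - (-1 - (i + 1) + 1) : ZMod n) = i := by ring
      simp only
      rw [e1, e2, Sym2.eq_swap]
      exact hi

theorem Close.rev {g : ℝ → ℂ} {δ : ℝ} {N k : ℕ} (hkN : k < N) {p : ZMod N → ℤ × ℤ} {ε : ℝ}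
    (h : Close g δ N k p ε) :
    Close (fun t => g (2 * Real.pi - t)) δ N (N - k) (fun i => p (-1 - i)) ε := by
  obtain ⟨s, hs, s0, sk, sN, hd⟩ := h
  refine ⟨fun i => 2 * Real.pi - s (N - i), fun i j hij => ?_, ?_, ?_, ?_, fun i hi t ht => ?_⟩
  · exact sub_le_sub_left (hs (Nat.sub_le_sub_left hij N)) _
  · simp [sN]
  · have : N - (N - k) = k := by omega
    simp only [this, sk]
    ring
  · simp [s0]
  · have e1 : N - i = (N - 1 - i) + 1 := by omega
    have e2 : N - (i + 1) = N - 1 - i := by omega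
    simp only [e1, e2] at ht
    have := hd (N - 1 - i) (by omega) (2 * Real.pi - t)
      ⟨by linarith [ht.2], by linarith [ht.1]⟩
    have e3 : ((N - 1 - i : ℕ) : ZMod N) = -1 - i := by
      have h1 : ((N - 1 - i : ℕ) : ZMod N) = ((N : ℕ) : ZMod N) - 1 - i := by
        rw [Nat.cast_sub (by omega), Nat.cast_sub (by omega)]
        push_cast
        ring
      rw [h1, ZMod.natCast_self]
      ring
    rw [e3] at this
    exact this

/-- From discrete times to `Approx`. -/
theorem approx_of_close {Φ : ℂ ≃ₜ ℂ} {δ : ℕ → ℝ} {N k : ℕ → ℕ} {p : ∀ n, ZMod (N n) → ℤ × ℤ}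
    {S : ℕ → Finset (Finset (ℤ × ℤ))}
    (h1 : ∀ n, 0 < δ n ∧ 0 < k n ∧ k n < N n ∧ Encloses (p n) (S n))
    (h2 : Tendsto δ atTop (𝓝 0))
    (h3 : ∀ ε > 0, ∀ᶠ n in atTop, Close (fun t => Φ (exp (t * I))) (δ n) (N n) (k n) (p n) ε) :
    Approx Φ δ N k p S := by
  have hg : Continuous fun t : ℝ => Φ (exp (t * I)) :=
    Φ.continuous.comp (Complex.continuous_exp.comp
      (Complex.continuous_ofReal.mul continuous_const))
  refine ⟨h1, h2, fun ε hε => ?_⟩
  filter_upwards [h3 (ε / 3) (by positivity), h2.eventually (gt_mem_nhds (show 0 < ε / 3 by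
    positivity))] with n hn hδ
  obtain ⟨hδ0, hk0, hkN, hE⟩ := h1 n
  obtain ⟨τ, t1, t2, t3, t4, t5, t6⟩ := hn.tau hg hδ0 hE.2.2.1 hk0 hkN
    (show 0 < ε / 3 by positivity)
  exact ⟨τ, t1, t2, t3, t4, t5, fun t ht => (t6 t ht).trans (by linarith)⟩

/-- **Every marked Jordan domain has approximations, for every sequence of meshes.** -/
theorem exists_approx (Φ : ℂ ≃ₜ ℂ) (δ : ℕ → ℝ) (hδ : ∀ n, 0 < δ n)
    (hδ0 : Tendsto δ atTop (𝓝 0)) :
    ∃ (N k : ℕ → ℕ) (p : ∀ n, ZMod (N n) → ℤ × ℤ) (S : ℕ → Finset (Finset (ℤ × ℤ))),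
      Approx Φ δ N k p S := by
  obtain ⟨Φ', hΦ', hpos⟩ : ∃ Φ', (Φ' = real (Φ.trans A.symm.toHomeomorph) ∨
      Φ' = Apx.cj.trans (real (Φ.trans A.symm.toHomeomorph))) ∧ Apx.Pos Φ' := by
    rcases Apx.pos_or (real (Φ.trans A.symm.toHomeomorph)) with h | h
    · exact ⟨_, Or.inl rfl, h⟩
    · exact ⟨_, Or.inr rfl, h⟩
  obtain ⟨N, k, p, S, h1, -, h3⟩ := Apx.approx_of_pos hpos hδ hδ0
  have hA : ∀ z w : ℂ, dist (A z) (A w) ≤ 2 * dist z w := by
    intro z w
    rw [Complex.dist_eq, Complex.dist_eq, ← map_sub]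
    exact norm_A _
  have hpt : ∀ (r : ℝ) (v : ℤ × ℤ), A ((r : ℂ) * P167.E6.pt v) = r * pt v := by
    intro r v
    rw [← A_pt, ← Complex.real_smul, ← Complex.real_smul, map_smul]
  have hr : ∀ t : ℝ, A (Final.toC (real (Φ.trans A.symm.toHomeomorph) (Final.circ t))) =
      Φ (exp (t * I)) := by
    intro t
    rw [toC_real_circ, toC_e]
    exact A.apply_symm_apply _
  rcases hΦ' with rfl | rfl
  · refine ⟨N, k, p, fun n => cut (S n), approx_of_close (fun n => ?_) hδ0 fun ε hε => ?_⟩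
    · obtain ⟨a1, a2, a3, a4, a5⟩ := h1 n
      exact ⟨a1, a2, a3, encloses_cut a4 a5⟩
    · filter_upwards [h3 (ε / 2) (by positivity)] with n hn
      obtain ⟨s, s1, s2, s3, s4, s5⟩ := hn
      refine ⟨s, s1, s2, s3, s4, fun i hi t ht => ?_⟩
      have := s5 i hi t ht
      have h6 := hA (δ n * P167.E6.pt (p n i)) (Final.toC (real (Φ.trans A.symm.toHomeomorph)
        (Final.circ t)))
      rw [hpt, hr] at h6
      exact h6.trans_lt (by linarith)
  · refine ⟨N, fun n => N n - k n, fun n i => p n (-1 - i), fun n => cut (S n),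
      approx_of_close (fun n => ?_) hδ0 fun ε hε => ?_⟩
    · obtain ⟨a1, a2, a3, a4, a5⟩ := h1 n
      exact ⟨a1, by omega, by omega, (encloses_cut a4 a5).rev⟩
    · filter_upwards [h3 (ε / 2) (by positivity)] with n hn
      obtain ⟨s, s1, s2, s3, s4, s5⟩ := hn
      have hc : Close (fun t => Φ (exp (((2 * Real.pi - t : ℝ)) * I))) (δ n) (N n) (k n) (p n) ε := by
        refine ⟨s, s1, s2, s3, s4, fun i hi t ht => ?_⟩
        have := s5 i hi t ht
        have e1 : (Apx.cj.trans (real (Φ.trans A.symm.toHomeomorph))) (Final.circ t) =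
            real (Φ.trans A.symm.toHomeomorph) (Final.circ (-t)) := by
          rw [Homeomorph.trans_apply, Apx.cj_circ]
        rw [e1] at this
        have h6 := hA (δ n * P167.E6.pt (p n i)) (Final.toC (real (Φ.trans A.symm.toHomeomorph)
          (Final.circ (-t))))
        rw [hpt, hr] at h6
        have e2 : exp (((2 * Real.pi - t : ℝ) : ℂ) * I) = exp (((-t : ℝ) : ℂ) * I) := by
          have : ((2 * Real.pi - t : ℝ) : ℂ) * I = ((-t : ℝ) : ℂ) * I + 2 * Real.pi * I := by
            push_cast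
            ring
          rw [this, Complex.exp_add, Complex.exp_two_pi_mul_I, mul_one]
        simp only
        rw [e2]
        exact h6.trans_lt (by linarith)
      have := hc.rev (h1 n).2.2.1
      have e3 : (fun t : ℝ => Φ (exp (((2 * Real.pi - (2 * Real.pi - t) : ℝ)) * I))) =
          fun t : ℝ => Φ (exp (t * I)) := by
        funext t
        congr 3
        push_cast
        ring
      rw [e3] at this
      exact this

end Vale.Agent.P153.H212
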