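import Vale.Agent.P153.H212.Appr

/-!
P153, second form of the final statements: the field theorem and the curve theorem.
-/

set_option autoImplicit false

namespace Vale.Agent.P153.H212

open MeasureTheory ProbabilityTheory Filter Topology Set Complex
open Vale.Agent.P153.R2

theorem toGauss_of {ι : Type} {l : Filter ι} {μ : ι → Final.Law} {hL : ∀ i, Final.Prob (μ i)}
    {X : ι → (ℤ × ℤ → ℤ) → ℝ} {m v : ℝ} (h : Final.ToGauss l μ hL X m v) :
    ToGauss l μ X m v := by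
  obtain ⟨hv, h⟩ := h
  refine ⟨hL, hv, fun F hF hM => ?_⟩
  obtain ⟨M, hM⟩ := hM
  let f : BoundedContinuousFunction ℝ ℝ :=
    BoundedContinuousFunction.ofNormedAddCommGroup F hF M hM
  have h1 := (ProbabilityMeasure.tendsto_iff_forall_integral_tendsto.1 h.tendsto) f
  have h2 : ∀ i, ∫ x, f x ∂((μ i).map (X i)) = ∫ y, F (X i y) ∂μ i := fun i =>
    integral_map (h.forall_aemeasurable i) hF.aestronglyMeasurable
  have h3 : ∫ x, f x ∂((gaussianReal m v.toNNReal).map id) =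
      ∫ x, F x ∂gaussianReal m v.toNNReal := by
    rw [Measure.map_id]
    rfl
  simp only [ProbabilityMeasure.coe_mk] at h1
  rw [h3] at h1
  exact h1.congr h2

theorem fld_fun {S : Finset (Finset (ℤ × ℤ))} (hS : Tris S) (δ : ℝ) (φ : ℂ → ℝ) :
    fld S δ φ = Final.fld (old S) δ (φ ∘ e.symm) := by
  funext h
  exact fld_eq hS δ φ h

theorem tris_of {n : ℕ} {p : ZMod n → ℤ × ℤ} {S : Finset (Finset (ℤ × ℤ))}
    (h : Encloses p S) : Tris S := h.2.2.2.1

/-- The field theorem for the two-arc boundary values. -/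
theorem field_arcs {κ : ℝ} (h : Final.Thm.FieldTheorem κ) (Φ : ℂ ≃ₜ ℂ) :
    ∃ u : ℂ → ℝ, IsHarm Φ u ∧ (∀ u', IsHarm Φ u' → EqOn u' u (dom Φ)) ∧
    ∀ (δ : ℕ → ℝ) (N k : ℕ → ℕ) (p : ∀ n, ZMod (N n) → ℤ × ℤ)
      (S : ℕ → Finset (Finset (ℤ × ℤ))), Approx Φ δ N k p S → ∀ φ, TestOn (dom Φ) φ →
      Tendsto (fun n => ∫ h, fld (S n) (δ n) φ h ∂law (p n) (S n) (arcs (k n))) atTop
        (𝓝 (∫ z, u z * φ z)) ∧
      ToGauss atTop (fun n => law (p n) (S n) (arcs (k n))) (fun n => fld (S n) (δ n) φ)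
        (∫ z, u z * φ z) (κ * V (dom Φ) φ) := by
  obtain ⟨U, hU, hUn, hlim⟩ := h (real Φ)
  refine ⟨U ∘ e, ?_, ?_, ?_⟩
  · rw [isHarm_iff, comp_e_symm]
    exact hU
  · intro u' hu' z hz
    have := hUn _ ((isHarm_iff Φ u').1 hu') (e z) ((mem_dom_real Φ z).2 hz)
    rwa [Function.comp_apply, e.symm_apply_apply] at this
  · intro δ N k p S hA φ hφ
    obtain ⟨hL, hl⟩ := hlim δ N k p (fun n => old (S n)) (converges hA)
    have hφ' : Final.TestOn (Final.dom (real Φ)) (φ ∘ e.symm) := by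
      rw [dom_real]
      exact (testOn_iff _ _).1 hφ
    obtain ⟨l1, l2⟩ := hl _ hφ'
    have hm : ∫ z, (U ∘ e) z * φ z = ∫ z, U z * (φ ∘ e.symm) z := by
      rw [← integral_e]
      simp only [Function.comp, e.symm_apply_apply]
    have hS : ∀ n, Tris (S n) := fun n => tris_of (hA.1 n).2.2.2
    have hlaw : (fun n => law (p n) (S n) (arcs (k n))) =
        fun n => Final.law (p n) (k n) (old (S n)) := by
      funext n
      exact law_arcs (hS n) (k n)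
    have hfld : (fun n => fld (S n) (δ n) φ) =
        fun n => Final.fld (old (S n)) (δ n) (φ ∘ e.symm) := by
      funext n
      exact fld_fun (hS n) (δ n) φ
    constructor
    · rw [hm]
      refine l1.congr fun n => ?_
      rw [law_arcs (hS n), fld_fun (hS n)]
      rfl
    · rw [hlaw, hfld, hm, ← V_eq, ← dom_real]
      exact toGauss_of l2

/-! ### The interface -/

theorem isSLE_of {Ω : Type} [MeasurableSpace Ω] {κ : ℝ} {P : Measure Ω} {γ : Ω → ℝ → ℂ}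
    (h : Final.IsSLETrace κ P γ) : IsSLE κ P γ := by
  obtain ⟨B, hB, h⟩ := h
  refine ⟨B, hB, ?_⟩
  filter_upwards [h] with ω hω
  exact ⟨hω.cont, hω.inj, hω.start, hω.im_pos, hω.domain_eq⟩

theorem toC_dom (Φ : ℂ ≃ₜ ℂ) : Final.toC '' Final.dom (real Φ) = dom Φ := by
  rw [dom_real, image_image]
  simp only [toC_e, image_id']

theorem toC_zero (Φ : ℂ ≃ₜ ℂ) : Final.toC (real Φ (Final.circ 0)) = Φ 1 := by
  rw [toC_real_circ, toC_e]
  simp

theorem toC_pi (Φ : ℂ ≃ₜ ℂ) : Final.toC (real Φ (Final.circ Real.pi)) = Φ (-1) := by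
  rw [toC_real_circ, toC_e, Complex.exp_pi_mul_I]

theorem isConformal_iff (Φ : ℂ ≃ₜ ℂ) (ψ : ℂ → ℂ) :
    IsConformal Φ ψ ↔ Final.IsUniformizer (real Φ) ψ := by
  rw [IsConformal, Final.IsUniformizer, toC_dom, toC_zero, toC_pi]
  constructor
  · rintro ⟨h1, h2, h3⟩
    exact ⟨h1, h2.injOn, h2.image_eq, h3⟩
  · rintro ⟨h1, h2, h3, h4⟩
    exact ⟨h1, ⟨fun z hz => h3 ▸ mem_image_of_mem ψ hz, h2, h3.symm ▸ Subset.rfl⟩, h4⟩

theorem mid_eq (δ : ℝ) (v w : ℤ × ℤ) :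
    Final.mid δ v w = δ * (1 / 2 * pt v + 1 / 2 * pt w) := by
  have h1 : Final.mid δ v w = e.symm ((δ / 2) • (Final.pt v + Final.pt w)) := rfl
  rw [h1, ← e_pt, ← e_pt, ← map_add, map_smul, e.symm_apply_apply, Complex.real_smul]
  push_cast
  ring

theorem curve_start {n : ℕ} (p : ZMod n → ℤ × ℤ) :
    curve p (-1 / 2) = 1 / 2 * pt (p (-1)) + 1 / 2 * pt (p 0) := by
  have h1 := curve_of_floor p (-1 / 2) (-1) (by norm_num) (by norm_num)
  rw [h1]
  have e0 : (((-1 : ℤ) : ZMod n) + 1) = 0 := by push_cast; ring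
  have e1 : (((-1 : ℤ) : ZMod n)) = -1 := by push_cast; ring
  rw [e0, e1]
  push_cast
  ring

theorem curve_end {n : ℕ} (p : ZMod n → ℤ × ℤ) (k : ℕ) :
    curve p (k - 1 / 2) = 1 / 2 * pt (p ((k : ZMod n) - 1)) + 1 / 2 * pt (p k) := by
  have h1 := curve_of_floor p (k - 1 / 2) (k - 1) (by push_cast; linarith) (by push_cast; linarith)
  rw [h1]
  have e0 : (((k - 1 : ℤ) : ZMod n) + 1) = k := by push_cast; ring
  have e1 : (((k - 1 : ℤ) : ZMod n)) = (k : ZMod n) - 1 := by push_cast; ring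
  rw [e0, e1]
  push_cast
  ring

theorem isInterface_iff {n : ℕ} {p : ZMod n → ℤ × ℤ} {S : Finset (Finset (ℤ × ℤ))}
    (hS : Tris S) (k : ℕ) (δ : ℝ) (h : ℤ × ℤ → ℤ) (γ : C(unitInterval, ℂ)) :
    IsInterface p k S δ h γ ↔ Final.IsInterface p k (old S) δ h γ := by
  rw [IsInterface, Final.IsInterface, curve_start, curve_end, mid_eq, mid_eq]
  refine and_congr_right fun _ => and_congr_right fun _ => and_congr_right fun _ =>
    forall_congr' fun t => ?_
  rw [mem_region hS, ext_div]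
  rfl

theorem curve_of (h : Final.Thm.CurveTheorem) : CurveTheorem := by
  obtain ⟨Ω, mΩ, P, hP, γ, hγ, h⟩ := h
  refine ⟨Ω, mΩ, P, γ, hP, isSLE_of hγ, fun Φ => ?_⟩
  obtain ⟨⟨ψ₀, hψ₀⟩, h⟩ := h (real Φ)
  refine ⟨⟨ψ₀, (isConformal_iff Φ ψ₀).2 hψ₀⟩, fun ψ hψ => ?_⟩
  obtain ⟨G, h1, h2, h3⟩ := h ψ ((isConformal_iff Φ ψ).1 hψ)
  rw [toC_pi] at h1
  refine ⟨G, h1, h2, fun δ N k p S hA => ?_⟩
  have hS : ∀ n, Tris (S n) := fun n => tris_of (hA.1 n).2.2.2
  obtain ⟨h4, h5⟩ := h3 δ N k p (fun n => old (S n)) (converges hA)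
  refine ⟨fun n g hg => ?_, fun c hc F hF hM hσ => ?_⟩
  · rw [heights_arcs (hS n)] at hg
    obtain ⟨c, hc⟩ := h4 n g hg
    exact ⟨c, (isInterface_iff (hS n) _ _ _ _).2 hc⟩
  · have h6 := h5 c (fun n g hg => by
      rw [← heights_arcs (hS n)] at hg
      exact (isInterface_iff (hS n) _ _ _ _).1 (hc n g hg)) F hF hM hσ
    refine h6.congr fun n => ?_
    rw [law_arcs (hS n)]
    rfl

end Vale.Agent.P153.H212
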