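import Vale.Agent.P153.H212.Cen
import Vale.Agent.P153.H212.Pos
import Vale.Agent.P153.H212.Exist
import Vale.Agent.P153.R2.Final.FreeT
import Vale.Agent.P153.R2.Final.Kap

/-!
P153, second form of the final statements: free boundary values and the plane, with the exact
constant.
-/

set_option autoImplicit false

namespace Vale.Agent.P153.H212

open MeasureTheory ProbabilityTheory Filter Topology Set
open Vale.Agent.P153.R2
open Vale.Agent.P153.JG5 (approx_of)

/-- The plane and the free boundary values with the constant `8 / π`, in the first form. -/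
theorem main8 : ∃ P : JG3.Law, ∃ hP : JG3.Prob P,
    (∀ D : ℕ → Finset (ℤ × ℤ), (∀ n, JG3.CoConnected (D n)) → (∀ x, ∀ᶠ n in atTop, x ∈ D n) →
      JG3.IsLocalLimit P D) ∧
      Tendsto (fun x => JG3.mean P (fun h => ((h x - h 0 : ℤ) : ℝ) ^ 2) /
        Real.log (JG3.len x)) cofinite (𝓝 (8 / Real.pi / Real.pi)) ∧
      (∀ f : ℝ × ℝ → ℝ, JG3.TestOn Set.univ f → ∫ x, f x = 0 →
        JG3.ToGauss (𝓝[>] 0) (fun _ => P) (fun _ => hP)
          (fun δ h => ∫ z : ℝ × ℝ, JG3.interp h (z.1 / δ, z.2 / δ) * f z)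
          (8 / Real.pi * ∫ x, ∫ y, -(2 * Real.pi)⁻¹ *
            Real.log (√((x.1 - y.1) ^ 2 + (x.2 - y.2) ^ 2)) * f x * f y)) ∧
      (∀ (Φ : (ℝ × ℝ) ≃ₜ (ℝ × ℝ)) (D : Set (ℝ × ℝ)),
        D = Φ '' {z | z.1 ^ 2 + z.2 ^ 2 < 1} → ∀ (δ : ℕ → ℝ) (N : ℕ → ℕ)
        (p : ∀ n, ZMod (N n) → ℤ × ℤ) (S : ℕ → Finset JG3.Tri), JG5.Approx D δ N p S →
        ∃ hL : ∀ n, JG3.Prob (JG3.unif (JG3.Heights (p n) (S n))), ∀ φ, JG3.TestOn D φ →
          JG3.ToGauss atTop (fun n => JG3.unif (JG3.Heights (p n) (S n))) hL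
            (fun n => JG3.fld (S n) (δ n) φ) (8 / Real.pi * JG3.V D φ)) := by
  obtain ⟨Q, κ', hQ, hP, hS, hC, hκ, hpr, ⟨h1, h2, _, _, _, _, _, h4, h5⟩, h6, _⟩ :=
    F.exists_all
  have hkap : 4 * κ' / √3 = 8 / Real.pi := Final.Par.kap ⟨hQ, hP, hS, hC, hκ⟩
  have h30 : (0 : ℝ) < √3 := by positivity
  have h5' : Tendsto (fun x : ℤ × ℤ =>
      (∫ h, ((h x - h 0 : ℤ) : ℝ) ^ 2 ∂((Q.map A.rc).map GFF.dbl)) /
      Real.log (GFF.len x)) cofinite (𝓝 (4 * κ' / √3 / Real.pi)) := by
    refine h5.congr fun x => ?_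
    congr 1
    refine integral_congr_ae ?_
    filter_upwards [h1] with h hh
    rw [hh, sub_zero]
  have hJ : 0 < 4 * κ' / √3 → JG.JordanPart (4 * κ' / √3) := by
    intro hk
    refine JG.jordanPart_of (fun D hD => F.jordan hQ hP hS hC ?_ hD)
    by_contra hn
    have h0 : κ' = 0 := le_antisymm (not_lt.1 hn) hκ
    rw [h0] at hk
    simp at hk
  have hκ0 : 0 < κ' := R2.KPOS.kpos hQ hP hS hκ
  have hk : 0 < 4 * κ' / √3 := by positivity
  rw [← hkap]
  refine ⟨(Q.map A.rc).map GFF.dbl, hpr,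
    fun D hD hx => (JG3.lim_iff _ D).2 (h2 D (fun n => (JG3.co_iff _).1 (hD n)) hx),
    h5', fun f hf h0 => ?_, fun Φ D hD δ N p S hA => ?_⟩
  · obtain ⟨a1, a2⟩ := h6 1 (fun _ => f) fun _ => ⟨hf.1, hf.2.1, h0⟩
    exact JG.toG_of_vec a1 a2
  · have hA' := approx_of hA
    have hD' : F.Dom.JordanDomain D := ⟨Φ, hD⟩
    obtain ⟨hL, h1⟩ := hJ hk D hD' δ N p S hA'
    have e : (fun n => JG.law (p n) (S n)) = fun n => JG3.unif (JG3.Heights (p n) (S n)) := by
      funext n
      exact (JG3.law_eq _ _).symm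
    have hL' : ∀ n, JG3.Prob (JG3.unif (JG3.Heights (p n) (S n))) := fun n => by
      have := hL n
      rw [← JG3.law_eq] at this
      exact this
    exact ⟨hL', fun φ hφ => JG3.toG_congr e (h1 φ hφ)⟩

theorem heights_free {n : ℕ} {p : ZMod n → ℤ × ℤ} {S : Finset (Finset (ℤ × ℤ))} (hS : Tris S) :
    Heights p S free = JG3.Heights p (old S) := by
  have hv : JG3.verts (old S) = verts S := verts_old hS
  ext h
  simp only [Heights, JG3.Heights, hv, mem_ofPred_eq]
  refine and_congr_right fun h1 => and_congr ?_ (and_congr_left fun _ => ?_)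
  · refine forall_congr' fun i => ?_
    rw [JG3.abs_one]
    simp [free]
  · refine forall₂_congr fun v hv => forall₂_congr fun w hw => ?_
    rw [adj_iff, step_iff (h1 v hv) (h1 w hw)]
    rfl

/-- The new notion of approximation implies the one for free boundary values. -/
theorem approx_free {Φ : ℂ ≃ₜ ℂ} {δ : ℕ → ℝ} {N k : ℕ → ℕ} {p : ∀ n, ZMod (N n) → ℤ × ℤ}
    {S : ℕ → Finset (Finset (ℤ × ℤ))} (h : Approx Φ δ N k p S) :
    JG5.Approx (e '' dom Φ) δ N p (fun n => old (S n)) := by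
  have hc := converges h
  have ha := APPX.approx_of (Φ := real Φ) (k := k) hc
  refine ⟨fun n => ⟨(h.1 n).1, ?_⟩, h.2.1, fun ε hε => ?_, ?_⟩
  · obtain ⟨a1, a2, a3, a4, a5⟩ := (h.1 n).2.2.2
    refine ⟨a1, a2, fun i => (adj_iff _ _).1 (a3 i), fun a b hab => ?_⟩
    rw [a5 a b ((adj_iff a b).2 hab)]
    exact exu_old a4 a b
  · filter_upwards [hc.2.2 (ε / 2) (by positivity)] with n hn i
    obtain ⟨s, s1, s2, s3, s4, s5⟩ := hn
    have hN : 0 < N n := (h.1 n).2.1.trans (h.1 n).2.2.1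
    have : NeZero (N n) := ⟨hN.ne'⟩
    have h1 := s5 i.val (ZMod.val_lt i) (s i.val) ⟨le_rfl, s1 (Nat.le_succ _)⟩
    rw [ZMod.natCast_val, ZMod.cast_id] at h1
    -- a point of the domain close to the boundary point
    have h2 : real Φ (Final.circ (s i.val)) ∈ closure (Final.dom (real Φ)) := by
      have h3 : Final.circ (s i.val) ∈ closure {z : ℝ × ℝ | z.1 ^ 2 + z.2 ^ 2 < 1} := by
        have h4 : Tendsto (fun m : ℕ => (1 - 1 / ((m : ℝ) + 1)) • Final.circ (s i.val)) atTop
            (𝓝 ((1 - (0 : ℝ)) • Final.circ (s i.val))) :=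
          (tendsto_const_nhds.sub tendsto_one_div_add_atTop_nhds_zero_nat).smul_const _
        rw [sub_zero, one_smul] at h4
        refine mem_closure_of_tendsto h4 (Eventually.of_forall fun m => ?_)
        have h5 : (0 : ℝ) < 1 / ((m : ℝ) + 1) := by positivity
        have h6 : 1 / ((m : ℝ) + 1) ≤ 1 := by
          rw [div_le_one (by positivity)]
          linarith [(Nat.cast_nonneg m : (0 : ℝ) ≤ m)]
        show ((1 - 1 / ((m : ℝ) + 1)) * Real.cos (s i.val)) ^ 2 +
          ((1 - 1 / ((m : ℝ) + 1)) * Real.sin (s i.val)) ^ 2 < 1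
        have h7 := Real.sin_sq_add_cos_sq (s i.val)
        set r := 1 / ((m : ℝ) + 1)
        have h8 : ((1 - r) * Real.cos (s i.val)) ^ 2 + ((1 - r) * Real.sin (s i.val)) ^ 2 =
            (1 - r) ^ 2 := by
          have : ((1 - r) * Real.cos (s i.val)) ^ 2 + ((1 - r) * Real.sin (s i.val)) ^ 2 =
            (1 - r) ^ 2 * (Real.sin (s i.val) ^ 2 + Real.cos (s i.val) ^ 2) := by ring
          rw [this, h7, mul_one]
        rw [h8]
        nlinarith
      exact image_closure_subset_closure_image (real Φ).continuous (mem_image_of_mem _ h3)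
    rw [dom_real] at h2
    obtain ⟨z, hz, hzd⟩ := Metric.mem_closure_iff.1 h2 (ε / 2) (by positivity)
    refine ⟨z, hz, ?_⟩
    have h4 : dist (δ n • Final.pt (p n i)) z < ε :=
      (dist_triangle _ (real Φ (Final.circ (s i.val))) _).trans_lt (by linarith)
    exact h4
  · rw [← dom_real]
    exact ha.2.2.2

theorem field : FieldTheorem := by
  have hF : Final.Thm.FieldTheorem (8 / Real.pi) := Final.Thm.full_lim.1
  obtain ⟨-, -, -, -, -, hJ⟩ := main8
  intro Φ
  obtain ⟨U, hU, hUn, hlim⟩ := hF (real Φ)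
  refine ⟨U ∘ e, ?_, ?_, ?_⟩
  · rw [isHarm_iff, comp_e_symm]
    exact hU
  · intro u' hu' z hz
    have := hUn _ ((isHarm_iff Φ u').1 hu') (e z) ((mem_dom_real Φ z).2 hz)
    rwa [Function.comp_apply, e.symm_apply_apply] at this
  · intro δ N k p S hA φ hφ
    refine ⟨fun h0 => V_pos Φ hφ h0, ?_⟩
    obtain ⟨hL, hl⟩ := hlim δ N k p (fun n => old (S n)) (converges hA)
    have hφ' : Final.TestOn (Final.dom (real Φ)) (φ ∘ e.symm) := by
      rw [dom_real]
      exact (testOn_iff _ _).1 hφ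
    obtain ⟨l1, l2⟩ := hl _ hφ'
    have hm : ∫ z, (U ∘ e) z * φ z = ∫ z, U z * (φ ∘ e.symm) z := by
      rw [← integral_e]
      simp only [Function.comp, e.symm_apply_apply]
    have hS : ∀ n, Tris (S n) := fun n => tris_of (hA.1 n).2.2.2
    have hlaw : (fun n => law (p n) (S n) (arcs (k n))) =
        fun n => Final.law (p n) (k n) (old (S n)) := by
      funext n
      exact law_arcs (hS n) (k n)
    have hfld : (fun n => fld (S n) (δ n) φ) =
        fun n => Final.fld (old (S n)) (δ n) (φ ∘ e.symm) := by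
      funext n
      exact fld_fun (hS n) (δ n) φ
    have hmean : Tendsto (fun n => ∫ h, fld (S n) (δ n) φ h ∂law (p n) (S n) (arcs (k n))) atTop
        (𝓝 (∫ z, U z * (φ ∘ e.symm) z)) := by
      refine l1.congr fun n => ?_
      rw [law_arcs (hS n), fld_fun (hS n)]
      rfl
    refine ⟨?_, ?_, ?_⟩
    · rw [hm]
      exact hmean
    · have h1 := center_of l2 hmean
      rw [dom_real, V_eq] at h1
      have e1 : (fun n h => fld (S n) (δ n) φ h -
          ∫ g, fld (S n) (δ n) φ g ∂law (p n) (S n) (arcs (k n))) =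
          fun n h => Final.fld (old (S n)) (δ n) (φ ∘ e.symm) h -
          ∫ g, fld (S n) (δ n) φ g ∂law (p n) (S n) (arcs (k n)) := by
        funext n h
        rw [fld_eq (hS n)]
        rfl
      rw [hlaw, e1]
      exact h1
    · obtain ⟨hL2, hl2⟩ := hJ (real Φ) (e '' dom Φ) (dom_real Φ).symm δ N p
        (fun n => old (S n)) (approx_free hA)
      have h1 := hl2 (φ ∘ e.symm) ((testOn_iff _ _).1 hφ)
      have h2 : Final.ToGauss atTop (fun n => JG3.unif (JG3.Heights (p n) (old (S n)))) hL2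
          (fun n => JG3.fld (old (S n)) (δ n) (φ ∘ e.symm)) 0
          (8 / Real.pi * JG3.V (e '' dom Φ) (φ ∘ e.symm)) := h1
      have h3 := toGauss_of h2
      have e1 : (fun n => law (p n) (S n) free) =
          fun n => JG3.unif (JG3.Heights (p n) (old (S n))) := by
        funext n
        rw [law, heights_free (hS n)]
        rfl
      have e2 : JG3.V (e '' dom Φ) (φ ∘ e.symm) = V (dom Φ) φ := V_eq (dom Φ) φ
      rw [e1, hfld, ← e2]
      exact h3

theorem curve_thm : CurveTheorem := curve_of Final.Thm.full_lim.2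

theorem co_iff (D : Finset (ℤ × ℤ)) : CoConnected D ↔ JG3.CoConnected D := by
  have h1 : (fun x y => Adj x y ∧ y ∉ D) = fun x y => JG3.Adj x y ∧ y ∉ D := by
    funext x y
    rw [show Adj x y = JG3.Adj x y from propext (adj_iff x y)]
  rw [CoConnected, JG3.CoConnected, h1]

theorem on_eq (D : Finset (ℤ × ℤ)) : HeightsOn D = JG3.HeightsOn D := by
  have h1 : ∀ x y, Adj x y = JG3.Adj x y := fun x y => propext (adj_iff x y)
  ext h
  simp only [HeightsOn, JG3.HeightsOn, h1, mem_ofPred_eq, JG3.abs_one]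
  refine and_congr_right fun h2 => and_congr_left fun _ => ?_
  refine forall₂_congr fun v hv => forall₂_congr fun w hw => ?_
  rw [step_iff (h2 v) (h2 w)]

theorem norm_pt (v : ℤ × ℤ) : ‖pt v‖ = JG3.len v := by
  have h1 := dist_pt v 0
  have h0 : pt 0 = 0 := by simp [pt]
  rw [h0, dist_zero_right] at h1
  rw [h1, Final.len, JG3.len]
  simp

theorem log_dist (x y : ℝ × ℝ) : √((x.1 - y.1) ^ 2 + (x.2 - y.2) ^ 2) =
    ‖e.symm x - e.symm y‖ := by
  rw [← map_sub, ← Real.sqrt_sq (norm_nonneg (e.symm (x - y))), ← Complex.normSq_eq_norm_sq,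
    Complex.normSq_apply]
  have h1 : (e.symm (x - y)).re = x.1 - y.1 := rfl
  have h2 : (e.symm (x - y)).im = x.2 - y.2 := rfl
  rw [h1, h2]
  congr 1
  ring

theorem plane : PlaneTheorem := by
  obtain ⟨P, hP, h1, h2, h3, -⟩ := main8
  refine ⟨P, hP, fun D hD hx B a => ?_, ?_, fun φ hφ h0 => ?_⟩
  · have := h1 D (fun n => (co_iff _).1 (hD n)) hx B a
    simp only [on_eq]
    exact this
  · have e1 : 8 / Real.pi / Real.pi = 8 / Real.pi ^ 2 := by
      rw [div_div, sq]
    rw [e1] at h2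
    refine h2.congr fun v => ?_
    rw [norm_pt]
    rfl
  · have hφ' : JG3.TestOn Set.univ (φ ∘ e.symm) := by
      have h4 := (testOn_iff univ φ).1 hφ
      have h5 : e '' (univ : Set ℂ) = univ := image_univ_of_surjective e.surjective
      rw [h5] at h4
      exact h4
    have h0' : ∫ x, (φ ∘ e.symm) x = 0 := by
      rw [← integral_e, ← h0]
      simp only [Function.comp, e.symm_apply_apply]
    have h4 := h3 _ hφ' h0'
    have h5 : Final.ToGauss (𝓝[>] (0 : ℝ)) (fun _ => P) (fun _ => hP)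
        (fun (δ : ℝ) h => ∫ z : ℝ × ℝ, JG3.interp h (z.1 / δ, z.2 / δ) * (φ ∘ e.symm) z) 0
        (8 / Real.pi * ∫ x, ∫ y, -(2 * Real.pi)⁻¹ *
            Real.log (√((x.1 - y.1) ^ 2 + (x.2 - y.2) ^ 2)) * (φ ∘ e.symm) x * (φ ∘ e.symm) y) := h4
    have h6 := toGauss_of h5
    have e1 : (fun (δ : ℝ) h => ∫ z : ℂ, ext h (z / δ) * φ z) =
        fun (δ : ℝ) h => ∫ z : ℝ × ℝ, JG3.interp h (z.1 / δ, z.2 / δ) * (φ ∘ e.symm) z := by
      funext δ h
      rw [← integral_e]
      refine integral_congr_ae (ae_of_all _ fun z => ?_)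
      simp only [Function.comp, e.symm_apply_apply]
      rw [ext_div]
      rfl
    have e2 : (∫ z : ℂ, ∫ w : ℂ, -(2 * Real.pi)⁻¹ * Real.log ‖z - w‖ * φ z * φ w) =
        ∫ x : ℝ × ℝ, ∫ y : ℝ × ℝ, -(2 * Real.pi)⁻¹ *
            Real.log (√((x.1 - y.1) ^ 2 + (x.2 - y.2) ^ 2)) * (φ ∘ e.symm) x *
              (φ ∘ e.symm) y := by
      rw [← integral_e]
      refine integral_congr_ae (ae_of_all _ fun z => ?_)
      simp only
      rw [← integral_e]
      refine integral_congr_ae (ae_of_all _ fun w => ?_)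
      simp only
      rw [log_dist]
      simp only [Function.comp, e.symm_apply_apply]
    rw [e1, e2]
    exact h6

theorem existence : Existence := exists_approx

/-- **Everything.** -/
theorem all : Existence ∧ FieldTheorem ∧ CurveTheorem ∧ PlaneTheorem :=
  ⟨existence, field, curve_thm, plane⟩

end Vale.Agent.P153.H212
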