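import Vale.Agent.P153.H212.Reg

/-!
P153, second form of the final statements: test functions, energy, harmonic functions.
-/

set_option autoImplicit false

namespace Vale.Agent.P153.H212

open MeasureTheory ProbabilityTheory Filter Topology Set Complex
open Vale.Agent.P153.R2

/-- The homeomorphism of `ℝ × ℝ` given by a homeomorphism of `ℂ`. -/
noncomputable def real (Φ : ℂ ≃ₜ ℂ) : (ℝ × ℝ) ≃ₜ (ℝ × ℝ) :=
  (e.symm.toHomeomorph.trans Φ).trans e.toHomeomorph

theorem real_apply (Φ : ℂ ≃ₜ ℂ) (w : ℝ × ℝ) : real Φ w = e (Φ (e.symm w)) := rfl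

theorem toC_e (z : ℂ) : Final.toC (e z) = z := e.symm_apply_apply z

theorem toC_real_circ (Φ : ℂ ≃ₜ ℂ) (t : ℝ) :
    real Φ (Final.circ t) = e (Φ (exp (t * I))) := by
  rw [real_apply]
  congr 2
  apply Complex.ext
  · simp [e_symm, Final.toC, Final.circ, Complex.exp_ofReal_mul_I_re]
  · simp [e_symm, Final.toC, Final.circ, Complex.exp_ofReal_mul_I_im]

theorem dom_real (Φ : ℂ ≃ₜ ℂ) : Final.dom (real Φ) = e '' dom Φ := by
  rw [Final.dom, dom, image_image]
  ext w
  constructor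
  · rintro ⟨x, hx, rfl⟩
    refine ⟨e.symm x, ?_, rfl⟩
    rw [mem_ball_zero_iff, ← sq_lt_one_iff₀ (norm_nonneg _), ← Complex.normSq_eq_norm_sq,
      Complex.normSq_apply]
    have h1 : (e.symm x).re = x.1 := rfl
    have h2 : (e.symm x).im = x.2 := rfl
    rw [h1, h2]
    have := hx.out
    nlinarith
  · rintro ⟨z, hz, rfl⟩
    refine ⟨e z, ?_, ?_⟩
    · rw [mem_ball_zero_iff, ← sq_lt_one_iff₀ (norm_nonneg _), ← Complex.normSq_eq_norm_sq,
        Complex.normSq_apply] at hz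
      show (e z).1 ^ 2 + (e z).2 ^ 2 < 1
      rw [e_apply]
      nlinarith
    · rw [real_apply, ContinuousLinearEquiv.symm_apply_apply]

theorem mem_dom_real (Φ : ℂ ≃ₜ ℂ) (z : ℂ) : e z ∈ Final.dom (real Φ) ↔ z ∈ dom Φ := by
  rw [dom_real]
  exact e.injective.mem_set_image

theorem comp_e {α : Type} (u : ℂ → α) : (u ∘ e.symm) ∘ e = u :=
  funext fun z => congrArg u (e.symm_apply_apply z)

theorem comp_e_symm {α : Type} (u : ℝ × ℝ → α) : (u ∘ e) ∘ e.symm = u :=
  funext fun z => congrArg u (e.apply_symm_apply z)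

/-! ### Test functions -/

theorem testOn_iff (D : Set ℂ) (φ : ℂ → ℝ) :
    TestOn D φ ↔ Final.TestOn (e '' D) (φ ∘ e.symm) := by
  have hs : tsupport (φ ∘ e.symm) = e '' tsupport φ := by
    have := tsupport_comp_eq_preimage φ e.symm.toHomeomorph
    rw [show (φ ∘ e.symm) = φ ∘ e.symm.toHomeomorph from rfl, this]
    ext w
    constructor
    · intro hw
      exact ⟨e.symm w, hw, e.apply_symm_apply w⟩
    · rintro ⟨z, hz, rfl⟩
      show e.symm (e z) ∈ tsupport φ
      rwa [e.symm_apply_apply]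
  rw [TestOn, Final.TestOn]
  refine and_congr ?_ (and_congr ?_ ?_)
  · constructor
    · intro h
      exact h.comp e.symm.contDiff
    · intro h
      rw [← comp_e φ]
      exact h.comp e.contDiff
  · constructor
    · intro h
      exact h.comp_homeomorph e.symm.toHomeomorph
    · intro h
      rw [← comp_e φ]
      exact h.comp_homeomorph e.toHomeomorph
  · rw [hs]
    exact (image_subset_image_iff e.injective).symm

theorem norm_dual (L : ℂ →L[ℝ] ℝ) : ‖L‖ ^ 2 = L 1 ^ 2 + L I ^ 2 := by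
  obtain ⟨w, rfl⟩ := (InnerProductSpace.toDual ℝ ℂ).surjective L
  rw [LinearIsometryEquiv.norm_map, InnerProductSpace.toDual_apply_apply,
    InnerProductSpace.toDual_apply_apply, ← Complex.normSq_eq_norm_sq, Complex.normSq_apply]
  simp [Complex.inner]
  ring

theorem fderiv_comp_e (ψ : ℂ → ℝ) (z : ℂ) (v : ℝ × ℝ) :
    fderiv ℝ (ψ ∘ e.symm) (e z) v = fderiv ℝ ψ z (e.symm v) := by
  rw [ContinuousLinearEquiv.comp_right_fderiv, ContinuousLinearEquiv.symm_apply_apply]
  rfl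

theorem e_symm_10 : e.symm (1, 0) = 1 := Complex.ext rfl rfl
theorem e_symm_01 : e.symm (0, 1) = I := Complex.ext rfl rfl

theorem energy_eq (ψ : ℂ → ℝ) : Final.energy (ψ ∘ e.symm) = ∫ z, ‖fderiv ℝ ψ z‖ ^ 2 := by
  rw [Final.energy, ← integral_e]
  refine integral_congr_ae (ae_of_all _ fun z => ?_)
  simp only
  rw [fderiv_comp_e, fderiv_comp_e, e_symm_10, e_symm_01, norm_dual]

theorem V_eq (D : Set ℂ) (φ : ℂ → ℝ) : Final.V (e '' D) (φ ∘ e.symm) = V D φ := by
  rw [Final.V, V]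
  refine Function.Surjective.iSup_congr
    (fun ψ : {ψ // Final.TestOn (e '' D) ψ} => (⟨ψ.1 ∘ e, by
      rw [testOn_iff, comp_e_symm]
      exact ψ.2⟩ : {ψ // TestOn D ψ})) ?_ ?_
  · rintro ⟨ψ, hψ⟩
    refine ⟨⟨ψ ∘ e.symm, (testOn_iff D ψ).1 hψ⟩, ?_⟩
    exact Subtype.ext (comp_e ψ)
  · rintro ⟨ψ, hψ⟩
    simp only
    rw [← energy_eq, comp_e_symm, ← integral_e]
    simp only [Function.comp, e.symm_apply_apply]

/-! ### Harmonic functions -/

theorem lap_eq (u : ℂ → ℝ) (z : ℂ) (h : ContDiffAt ℝ 2 u z) :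
    Final.lap (u ∘ e.symm) (e z) = Laplacian.laplacian u z := by
  have h1 : ∀ v : ℝ × ℝ, (fun w => fderiv ℝ (u ∘ e.symm) w v) =
      (fun z => fderiv ℝ u z (e.symm v)) ∘ e.symm := by
    intro v
    funext w
    have := fderiv_comp_e u (e.symm w) v
    rw [e.apply_symm_apply] at this
    exact this
  have h2 : ∀ v : ℂ, fderiv ℝ (fun z => fderiv ℝ u z v) z v =
      iteratedFDeriv ℝ 2 u z ![v, v] := by
    intro v
    have hd : DifferentiableAt ℝ (fderiv ℝ u) z :=
      (h.fderiv_right (m := 1) (by norm_num)).differentiableAt (by norm_num)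
    rw [iteratedFDeriv_two_apply]
    simp only [Matrix.cons_val_zero, Matrix.cons_val_one]
    have := (hd.hasFDerivAt.clm_apply (hasFDerivAt_const v z)).fderiv
    rw [this]
    simp
  rw [Final.lap, h1, h1, fderiv_comp_e, fderiv_comp_e, e_symm_10, e_symm_01, h2, h2,
    InnerProductSpace.laplacian_eq_iteratedFDeriv_complexPlane]

theorem isOpen_dom (Φ : ℂ ≃ₜ ℂ) : IsOpen (dom Φ) := Φ.isOpenMap _ Metric.isOpen_ball

theorem harm_iff (Φ : ℂ ≃ₜ ℂ) (u : ℂ → ℝ) :
    InnerProductSpace.HarmonicOnNhd u (dom Φ) ↔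
      ContDiffOn ℝ 2 (u ∘ e.symm) (Final.dom (real Φ)) ∧
        ∀ z ∈ Final.dom (real Φ), Final.lap (u ∘ e.symm) z = 0 := by
  have ho := isOpen_dom Φ
  have hO : IsOpen (Final.dom (real Φ)) := by
    rw [dom_real]
    exact e.toHomeomorph.isOpenMap _ ho
  constructor
  · intro h
    have hc : ∀ z ∈ dom Φ, ContDiffAt ℝ 2 u z := fun z hz => (h z hz).1
    rw [dom_real]
    refine ⟨?_, ?_⟩
    · rintro _ ⟨z, hz, rfl⟩
      refine ContDiffAt.contDiffWithinAt ?_
      refine ContDiffAt.comp (e z) ?_ e.symm.contDiff.contDiffAt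
      rw [e.symm_apply_apply]
      exact hc z hz
    · rintro _ ⟨z, hz, rfl⟩
      rw [lap_eq u z (hc z hz)]
      exact (h z hz).2.self_of_nhds
  · rintro ⟨h1, h2⟩ z hz
    have hc : ∀ z ∈ dom Φ, ContDiffAt ℝ 2 u z := by
      intro z hz
      have := h1.contDiffAt (hO.mem_nhds ((mem_dom_real Φ z).2 hz))
      rw [← comp_e u]
      exact ContDiffAt.comp z this e.contDiff.contDiffAt
    refine ⟨hc z hz, ?_⟩
    filter_upwards [ho.mem_nhds hz] with y hy
    rw [← lap_eq u y (hc y hy)]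
    exact h2 _ ((mem_dom_real Φ y).2 hy)

theorem arcPlus_real (Φ : ℂ ≃ₜ ℂ) : Final.arcPlus (real Φ) = e '' arcPlus Φ := by
  rw [Final.arcPlus, arcPlus, image_image]
  ext w
  constructor
  · rintro ⟨t, ht, rfl⟩
    refine ⟨exp (t * I), ⟨Complex.norm_exp_ofReal_mul_I t, ?_⟩, (toC_real_circ Φ t).symm⟩
    rw [Complex.exp_ofReal_mul_I_im]
    exact Real.sin_pos_of_mem_Ioo ht
  · rintro ⟨z, ⟨h1, h2⟩, rfl⟩
    refine ⟨z.arg, ⟨?_, ?_⟩, ?_⟩
    · rcases (Complex.arg_nonneg_iff.2 h2.le).lt_or_eq with h | h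
      · exact h
      · exact absurd (Complex.arg_eq_zero_iff.1 h.symm).2 h2.ne'
    · rcases (Complex.arg_le_pi z).lt_or_eq with h | h
      · exact h
      · exact absurd (Complex.arg_eq_pi_iff.1 h).2 h2.ne'
    · simp only
      rw [toC_real_circ]
      congr 2
      have := Complex.norm_mul_exp_arg_mul_I z
      rw [h1] at this
      simpa using this

theorem arcMinus_real (Φ : ℂ ≃ₜ ℂ) : Final.arcMinus (real Φ) = e '' arcMinus Φ := by
  rw [Final.arcMinus, arcMinus, image_image]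
  ext w
  constructor
  · rintro ⟨t, ht, rfl⟩
    refine ⟨exp (t * I), ⟨Complex.norm_exp_ofReal_mul_I t, ?_⟩, (toC_real_circ Φ t).symm⟩
    rw [Complex.exp_ofReal_mul_I_im, ← Real.sin_sub_two_pi]
    exact Real.sin_neg_of_neg_of_neg_pi_lt (by linarith [ht.2]) (by linarith [ht.1])
  · rintro ⟨z, ⟨h1, h2⟩, rfl⟩
    have ha : z.arg < 0 := Complex.arg_neg_iff.2 h2
    have hb := Complex.neg_pi_lt_arg z
    refine ⟨z.arg + 2 * Real.pi, ⟨by linarith, by linarith⟩, ?_⟩
    simp only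
    rw [toC_real_circ]
    congr 2
    have := Complex.norm_mul_exp_arg_mul_I z
    rw [h1] at this
    rw [Complex.ofReal_add, add_mul, Complex.exp_add]
    simpa using this

theorem tendsto_e (u : ℂ → ℝ) (D : Set ℂ) (x : ℂ) (l : Filter ℝ) :
    Tendsto (u ∘ e.symm) (𝓝[e '' D] (e x)) l ↔ Tendsto u (𝓝[D] x) l := by
  have h1 : 𝓝[e '' D] (e x) = map e (𝓝[D] x) :=
    (e.toHomeomorph.isEmbedding.map_nhdsWithin_eq D x).symm
  rw [h1, tendsto_map'_iff, comp_e]

theorem isHarm_iff (Φ : ℂ ≃ₜ ℂ) (u : ℂ → ℝ) :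
    IsHarm Φ u ↔ Final.IsHarm (real Φ) (u ∘ e.symm) := by
  rw [IsHarm, Final.IsHarm, harm_iff, and_assoc, arcPlus_real, arcMinus_real, dom_real]
  refine and_congr_right fun _ => and_congr_right fun _ => and_congr ?_ (and_congr ?_ ?_)
  · constructor
    · rintro h _ ⟨z, hz, rfl⟩
      rw [Function.comp_apply, e.symm_apply_apply]
      exact h z hz
    · intro h z hz
      have := h _ ⟨z, hz, rfl⟩
      rwa [Function.comp_apply, e.symm_apply_apply] at this
  · constructor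
    · rintro h _ ⟨z, hz, rfl⟩
      exact (tendsto_e _ _ _ _).2 (h z hz)
    · intro h z hz
      exact (tendsto_e _ _ _ _).1 (h _ ⟨z, hz, rfl⟩)
  · constructor
    · rintro h _ ⟨z, hz, rfl⟩
      exact (tendsto_e _ _ _ _).2 (h z hz)
    · intro h z hz
      exact (tendsto_e _ _ _ _).1 (h _ ⟨z, hz, rfl⟩)

end Vale.Agent.P153.H212
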