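import Vale.Agent.P167.H634.Apx.Wind
import Vale.Agent.P153.H212.Inc
import Vale.Agent.P153.R2.R1.PL

/-!
P153, second form (after P167.H634.Apx.Idx): the winding number of a closed curve which is close to a lattice polygon
-/

set_option autoImplicit false

namespace Vale.Agent.P153.H212.Apx

open Set Metric Topology Filter
open Vale.Agent.P167.E6 (IsPolygon Encloses dir face pt)
open Vale.Agent.P167.H174
open Vale.Agent.P167.H634.Apx
open Vale.Agent.P153.H212.Q (IncOn exists_incOn incOn_lin)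
open Vale.Agent.P167.E2 (lin lin_eq lin_nat continuous_lin)
open Vale.Agent.P153.R2.R1 (pl pl_int continuous_pl monotone_pl)

variable {n : ℕ} [NeZero n] {p : ZMod n → ℤ × ℤ}

theorem norm_dir (r : Fin 4) : ‖pt (dir r)‖ = 1 := by
  fin_cases r
  · have : pt (dir 0) = 1 := by apply Complex.ext <;> simp [pt, dir]
    simpa using congrArg norm this
  · have : pt (dir 1) = Complex.I := by apply Complex.ext <;> simp [pt, dir]
    simpa using congrArg norm this
  · have : pt (dir 2) = -1 := by apply Complex.ext <;> simp [pt, dir]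
    simpa using congrArg norm this
  · have : pt (dir 3) = -Complex.I := by apply Complex.ext <;> simp [pt, dir]
    simpa using congrArg norm this

theorem pt_add (u v : ℤ × ℤ) : pt (u + v) = pt u + pt v := by
  apply Complex.ext <;> simp [pt]

/-- The face of a point. -/
noncomputable def fl (h : ℝ) (z : ℂ) : ℤ × ℤ := (⌊z.re / h⌋, ⌊z.im / h⌋)

theorem dist_fl {h : ℝ} (hh : 0 < h) (z : ℂ) : dist ((h : ℂ) * ctr (fl h z)) z ≤ h := by
  rw [dist_eq_norm]
  have key : ∀ x : ℝ, |h * (⌊x / h⌋ + 1 / 2) - x| ≤ h / 2 := by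
    intro x
    have h1 := Int.floor_le (x / h)
    have h2 := (Int.lt_floor_add_one (x / h)).le
    have h3 : x / h * h = x := div_mul_cancel₀ x hh.ne'
    rw [abs_le]
    constructor <;> nlinarith
  have h1 := Complex.norm_le_abs_re_add_abs_im ((h : ℂ) * ctr (fl h z) - z)
  have h2 : ((h : ℂ) * ctr (fl h z) - z).re = h * (⌊z.re / h⌋ + 1 / 2) - z.re := by
    rw [Complex.sub_re, Complex.re_ofReal_mul]
    rfl
  have h3 : ((h : ℂ) * ctr (fl h z) - z).im = h * (⌊z.im / h⌋ + 1 / 2) - z.im := by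
    rw [Complex.sub_im, Complex.im_ofReal_mul]
    rfl
  rw [h2, h3] at h1
  have h4 := key z.re
  have h5 := key z.im
  linarith

/-- **The winding number of a closed curve which is close to a lattice polygon.** -/
theorem inc_eq {c : ℝ → ℂ} (hc : Continuous c) {T : ℝ} (hper : c T = c 0) (hp : IsPolygon p)
    {s : ℕ → ℝ} (hs : Monotone s) (s0 : s 0 = 0) (sn : s n = T) {h ε ρ : ℝ} (hh : 0 < h)
    (hcl : ∀ i < n, ∀ t ∈ Icc (s i) (s (i + 1)), dist ((h : ℂ) * pt (p i)) (c t) < ε) {z : ℂ}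
    (hz : ∀ t ∈ Icc 0 T, ρ ≤ dist (c t) z) {f : ℤ × ℤ} (hf : dist ((h : ℂ) * ctr f) z ≤ h)
    (hρ : 2 * h + ε ≤ ρ) {d : ℂ} (hd : IncOn c 0 T z d) : d = idx p (ctr f) := by
  have hn : 0 < n := Nat.pos_of_ne_zero (NeZero.ne n)
  have hh0 : (h : ℂ) ≠ 0 := by exact_mod_cast hh.ne'
  set x : ℕ → ℂ := fun j => (h : ℂ) * pt (p (j : ZMod n)) with hx
  set s' : ℤ → ℝ := fun i => s i.toNat with hs'
  have hs'm : Monotone s' := fun a b hab => hs (Int.toNat_le_toNat hab)
  set σ : ℝ → ℝ := pl s' with hσ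
  have hσm : Monotone σ := monotone_pl hs'm
  have hσc : Continuous σ := continuous_pl _
  have hσi : ∀ i : ℕ, σ i = s i := by
    intro i
    have h1 := pl_int s' (i : ℤ)
    have h2 : s' (i : ℤ) = s i := by simp [hs']
    rw [h2] at h1
    exact_mod_cast h1
  have hσ0 : σ 0 = 0 := by
    have := hσi 0
    rw [Nat.cast_zero] at this
    rw [this, s0]
  have hσn : σ n = T := by rw [hσi, sn]
  have hmaps : MapsTo σ (Icc 0 (n : ℝ)) (Icc 0 T) := by
    intro t ht
    rw [← hσ0, ← hσn]
    exact ⟨hσm ht.1, hσm ht.2⟩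
  have h1 := hd.comp hσc.continuousOn hmaps hσ0 hσn
  -- the position
  have hpos : ∀ t ∈ Icc 0 (n : ℝ), ∃ i < n, (i : ℝ) ≤ t ∧ t ≤ i + 1 := by
    intro t ht
    rcases ht.2.lt_or_eq with h2 | h2
    · refine ⟨⌊t⌋₊, (Nat.floor_lt ht.1).2 h2, Nat.floor_le ht.1, (Nat.lt_floor_add_one t).le⟩
    · refine ⟨n - 1, by omega, ?_, ?_⟩
      · rw [Nat.cast_sub hn, h2]
        push_cast
        linarith
      · rw [Nat.cast_sub hn, h2]
        push_cast
        linarith
  have hstep : ∀ i : ℕ, ‖x (i + 1) - x i‖ ≤ h := by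
    intro i
    obtain ⟨r, hr⟩ := hp.2.2 (i : ZMod n)
    simp only [hx]
    push_cast
    rw [hr, pt_add, ← mul_sub, add_sub_cancel_left, norm_mul, norm_dir, mul_one,
      Complex.norm_real, Real.norm_of_nonneg hh.le]
  have hclose : ∀ t ∈ Icc 0 (n : ℝ),
      ‖(lin x t - (h : ℂ) * ctr f) - (c (σ t) - z)‖ < ‖c (σ t) - z‖ := by
    intro t ht
    obtain ⟨i, hi, hi1, hi2⟩ := hpos t ht
    have h2 : ‖lin x t - x i‖ ≤ h := by
      rw [lin_eq x i (Or.inl hi1) hi2, add_sub_cancel_left, norm_mul]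
      have h3 : ‖((t - i : ℝ) : ℂ)‖ ≤ 1 := by
        rw [Complex.norm_real, Real.norm_eq_abs, abs_le]
        constructor <;> linarith
      calc _ ≤ 1 * h := mul_le_mul h3 (hstep i) (norm_nonneg _) zero_le_one
        _ = h := one_mul h
    have h3 : σ t ∈ Icc (s i) (s (i + 1)) := by
      have e1 := hσi i
      have e2 := hσi (i + 1)
      push_cast at e2
      rw [← e1, ← e2]
      exact ⟨hσm hi1, hσm hi2⟩
    have h4 := hcl i hi _ h3
    rw [dist_eq_norm] at h4
    have h5 := hz _ (hmaps ht)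
    rw [dist_eq_norm] at h5 hf
    have h6 : (lin x t - (h : ℂ) * ctr f) - (c (σ t) - z) =
        (lin x t - x i) + ((h : ℂ) * pt (p i) - c (σ t)) - ((h : ℂ) * ctr f - z) := by
      simp only [hx]
      ring
    rw [h6]
    have h7 := norm_sub_le ((lin x t - x i) + ((h : ℂ) * pt (p i) - c (σ t)))
      ((h : ℂ) * ctr f - z)
    have h8 := norm_add_le (lin x t - x i) ((h : ℂ) * pt (p i) - c (σ t))
    linarith
  have h2 := h1.near (hc.comp hσc).continuousOn (continuous_lin x).continuousOn hclose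
  have h3 : IncOn (lin x) 0 n ((h : ℂ) * ctr f) (idx p (ctr f)) := by
    have h4 := incOn_lin (x := x) (z := (h : ℂ) * ctr f) n
      (fun j _ => by
        simp only [hx]
        intro h5
        have h6 := mul_left_cancel₀ hh0 h5
        exact (ratio_slit f (p (j : ZMod n)) 0).1 (sub_eq_zero.2 h6))
      (fun j _ => by
        obtain ⟨r, hr⟩ := hp.2.2 (j : ZMod n)
        simp only [hx]
        push_cast
        rw [← mul_sub, ← mul_sub, mul_div_mul_left _ _ hh0, hr]
        exact (ratio_slit f (p (j : ZMod n)) r).2)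
    have h5 : ∑ j ∈ Finset.range n, Complex.log ((x (j + 1) - (h : ℂ) * ctr f) /
        (x j - (h : ℂ) * ctr f)) = idx p (ctr f) := by
      unfold idx
      rw [← sum_zmod (fun i => Complex.log ((pt (p (i + 1)) - ctr f) / (pt (p i) - ctr f)))]
      refine Finset.sum_congr rfl fun j _ => ?_
      simp only [hx]
      push_cast
      rw [← mul_sub, ← mul_sub, mul_div_mul_left _ _ hh0]
    rw [h5] at h4
    exact h4
  have h4 : lin x n = lin x 0 := by
    have h5 := lin_nat x n
    have h6 := lin_nat x 0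
    rw [Nat.cast_zero] at h6
    rw [h5, h6]
    simp only [hx]
    rw [ZMod.natCast_self, Nat.cast_zero]
  rw [h4, hσn, hσ0, hper, sub_self, add_zero] at h2
  exact IncOn.unique (Nat.cast_nonneg n) h2 h3

end Vale.Agent.P153.H212.Apx
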