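import Vale.Agent.P153.H212.Def
import Vale.Agent.P153.R2.Final.Thm

/-!
P153, second form of the final statements: the lattice.
-/

set_option autoImplicit false

namespace Vale.Agent.P153.H212

open MeasureTheory ProbabilityTheory Filter Topology Set Complex
open Vale.Agent.P153.R2

theorem pt_re (v : ℤ × ℤ) : (pt v).re = v.1 + v.2 / 2 := by
  simp [pt]; ring

theorem pt_im (v : ℤ × ℤ) : (pt v).im = √3 / 2 * v.2 := by
  simp [pt]; ring

theorem toC_pt (v : ℤ × ℤ) : Final.toC (Final.pt v) = pt v := by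
  apply Complex.ext
  · rw [pt_re]; rfl
  · rw [pt_im]; rfl

theorem dist_pt (v w : ℤ × ℤ) : dist (pt v) (pt w) = Final.len (w - v) := by
  rw [Complex.dist_eq, ← Real.sqrt_sq (norm_nonneg _), ← Complex.normSq_eq_norm_sq,
    Complex.normSq_apply, Complex.sub_re, Complex.sub_im, pt_re, pt_re, pt_im, pt_im, Final.len]
  congr 1
  have h3 : √3 * √3 = 3 := Real.mul_self_sqrt (by norm_num)
  simp only [Prod.fst_sub, Prod.snd_sub, Int.cast_sub]
  linear_combination ((v.2 : ℝ) - w.2) ^ 2 / 4 * h3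

theorem adj_iff (v w : ℤ × ℤ) : Adj v w ↔ Final.Adj v w := by
  rw [Adj, dist_pt, Final.Adj]

theorem adj_int (v w : ℤ × ℤ) : Adj v w ↔
    (w.1 - v.1) ^ 2 + (w.1 - v.1) * (w.2 - v.2) + (w.2 - v.2) ^ 2 = 1 := by
  rw [adj_iff, Final.Adj, Final.len, Real.sqrt_eq_one]
  simp only [Prod.fst_sub, Prod.snd_sub]
  constructor
  · intro h
    exact_mod_cast h
  · intro h
    exact_mod_cast h

theorem six {a b : ℤ} (h : a ^ 2 + a * b + b ^ 2 = 1) :
    (a = 1 ∧ b = 0) ∨ (a = -1 ∧ b = 0) ∨ (a = 0 ∧ b = 1) ∨ (a = 0 ∧ b = -1) ∨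
      (a = 1 ∧ b = -1) ∨ (a = -1 ∧ b = 1) := by
  have h1 : -2 < a := by nlinarith [sq_nonneg (a + 2 * b)]
  have h2 : a < 2 := by nlinarith [sq_nonneg (a + 2 * b)]
  have h3 : -2 < b := by nlinarith [sq_nonneg (2 * a + b)]
  have h4 : b < 2 := by nlinarith [sq_nonneg (2 * a + b)]
  interval_cases a <;> interval_cases b <;> simp_all

theorem adj6 {v w : ℤ × ℤ} (h : Adj v w) :
    (w.1 = v.1 + 1 ∧ w.2 = v.2) ∨ (w.1 = v.1 - 1 ∧ w.2 = v.2) ∨ (w.1 = v.1 ∧ w.2 = v.2 + 1) ∨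
      (w.1 = v.1 ∧ w.2 = v.2 - 1) ∨ (w.1 = v.1 + 1 ∧ w.2 = v.2 - 1) ∨
      (w.1 = v.1 - 1 ∧ w.2 = v.2 + 1) := by
  rcases six ((adj_int v w).1 h) with h | h | h | h | h | h <;> omega

/-- Every triangle (three mutually adjacent vertices) is the set of the corners of a triangle. -/
theorem exists_tri {t : Finset (ℤ × ℤ)} (h3 : t.card = 3)
    (hp : (t : Set (ℤ × ℤ)).Pairwise Adj) : ∃ T : Final.Tri, Final.corners T = t := by
  obtain ⟨x, y, z, hxy, hxz, hyz, rfl⟩ := Finset.card_eq_three.1 h3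
  have a1 := adj6 (hp (by simp) (by simp) hxy)
  have a2 := adj6 (hp (by simp) (by simp) hxz)
  have a3 := adj6 (hp (by simp) (by simp) hyz)
  obtain ⟨x1, x2⟩ := x
  obtain ⟨y1, y2⟩ := y
  obtain ⟨z1, z2⟩ := z
  simp only at a1 a2 a3
  have key : ∃ T : Final.Tri, (x1, x2) ∈ Final.corners T ∧ (y1, y2) ∈ Final.corners T ∧
      (z1, z2) ∈ Final.corners T := by
    rcases a1 with a1 | a1 | a1 | a1 | a1 | a1 <;> rcases a2 with a2 | a2 | a2 | a2 | a2 | a2 <;>
    first
    | exact absurd a3 (by omega)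
    | exact ⟨((x1, x2), false), by simp [Final.corners]; omega⟩
    | exact ⟨((x1 - 1, x2), false), by simp [Final.corners]; omega⟩
    | exact ⟨((x1, x2 - 1), false), by simp [Final.corners]; omega⟩
    | exact ⟨((x1 - 1, x2), true), by simp [Final.corners]; omega⟩
    | exact ⟨((x1, x2 - 1), true), by simp [Final.corners]; omega⟩
    | exact ⟨((x1 - 1, x2 - 1), true), by simp [Final.corners]; omega⟩
  obtain ⟨T, k1, k2, k3⟩ := key
  refine ⟨T, (Finset.eq_of_subset_of_card_le ?_ ?_).symm⟩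
  · intro w hw
    simp only [Finset.mem_insert, Finset.mem_singleton] at hw
    rcases hw with rfl | rfl | rfl <;> assumption
  · rw [h3]
    obtain ⟨⟨a, b⟩, c⟩ := T
    cases c <;> exact Finset.card_le_three

theorem corners_inj {T T' : Final.Tri} (h : Final.corners T = Final.corners T') : T = T' := by
  obtain ⟨⟨a, b⟩, c⟩ := T
  obtain ⟨⟨a', b'⟩, c'⟩ := T'
  have h1 := fun w : ℤ × ℤ => Finset.ext_iff.1 h w
  have e1 := h1 (a, b)
  have e2 := h1 (a + 1, b)
  have e3 := h1 (a, b + 1)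
  have e4 := h1 (a + 1, b + 1)
  cases c <;> cases c' <;> simp [Final.corners] at e1 e2 e3 e4 ⊢ <;> omega

theorem card_corners (T : Final.Tri) : (Final.corners T).card = 3 := by
  obtain ⟨⟨a, b⟩, c⟩ := T
  cases c <;> simp [Final.corners]

end Vale.Agent.P153.H212
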