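import Vale.Agent.P153.H212.Appr

/-!
P153, second form of the final statements: from discrete times to continuous reparametrizations.
-/

set_option autoImplicit false

namespace Vale.Agent.P153.H212

open Filter Topology Set Complex

/-- The polygon is within `ε` of the marked curve `g`, with discrete times. -/
def Close (g : ℝ → ℂ) (δ : ℝ) (N k : ℕ) (p : ZMod N → ℤ × ℤ) (ε : ℝ) : Prop :=
  ∃ s : ℕ → ℝ, Monotone s ∧ s 0 = 0 ∧ s k = Real.pi ∧ s N = 2 * Real.pi ∧
    ∀ i < N, ∀ t ∈ Icc (s i) (s (i + 1)), dist (δ * pt (p i)) (g t) < ε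

/-- The times can be chosen strictly increasing. -/
theorem Close.strict {g : ℝ → ℂ} (hg : Continuous g) {δ : ℝ} {N k : ℕ} {p : ZMod N → ℤ × ℤ}
    {ε : ℝ} (h : Close g δ N k p ε) (hk : 0 < k) (hkN : k < N) {ε' : ℝ} (hε' : 0 < ε') :
    ∃ s : ℕ → ℝ, (∀ i < N, s i < s (i + 1)) ∧ s 0 = 0 ∧ s k = Real.pi ∧ s N = 2 * Real.pi ∧
    ∀ i < N, ∀ t ∈ Icc (s i) (s (i + 1)), dist (δ * pt (p i)) (g t) < ε + ε' := by
  obtain ⟨s, hs, s0, sk, sN, hd⟩ := h
  have hpp := Real.pi_pos
  have huc : UniformContinuousOn g (Icc 0 (2 * Real.pi)) :=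
    isCompact_Icc.uniformContinuousOn_of_continuous hg.continuousOn
  rw [Metric.uniformContinuousOn_iff] at huc
  obtain ⟨η, hη, huc⟩ := huc ε' hε'
  -- the linear times
  let u : ℕ → ℝ := fun i => if i ≤ k then Real.pi * i / k else
    Real.pi + Real.pi * ((i : ℝ) - k) / (N - k)
  have hkr : (0 : ℝ) < k := by exact_mod_cast hk
  have hNk : (0 : ℝ) < (N : ℝ) - k := by
    have : (k : ℝ) < N := by exact_mod_cast hkN
    linarith
  have hu : ∀ i, u i < u (i + 1) := by
    intro i
    by_cases h1 : i + 1 ≤ k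
    · have h2 : i ≤ k := by omega
      simp only [u, if_pos h1, if_pos h2]
      push_cast
      rw [div_lt_div_iff_of_pos_right hkr]
      nlinarith
    · by_cases h2 : i ≤ k
      · have h3 : i = k := by omega
        subst h3
        simp only [u, if_neg h1, le_refl, if_true]
        push_cast
        have e1 : Real.pi * (i : ℝ) / i = Real.pi := by field_simp
        rw [e1]
        have : 0 < Real.pi * ((i : ℝ) + 1 - i) / (N - i) := by
          apply div_pos _ hNk
          nlinarith
        linarith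
      · simp only [u, if_neg h1, if_neg h2]
        push_cast
        have : Real.pi * ((i : ℝ) - k) / (N - k) < Real.pi * ((i : ℝ) + 1 - k) / (N - k) := by
          rw [div_lt_div_iff_of_pos_right hNk]
          nlinarith
        linarith
  have u0 : u 0 = 0 := by simp [u]
  have uk : u k = Real.pi := by
    simp only [u, le_refl, if_true]
    field_simp
  have uN : u N = 2 * Real.pi := by
    have : ¬ N ≤ k := by omega
    simp only [u, if_neg this]
    field_simp
    ring
  have hum : StrictMono u := strictMono_nat_of_lt_succ hu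
  have hsr : ∀ i ≤ N, s i ∈ Icc 0 (2 * Real.pi) := fun i hi =>
    ⟨s0 ▸ hs (Nat.zero_le i), sN ▸ hs hi⟩
  have hur : ∀ i ≤ N, u i ∈ Icc 0 (2 * Real.pi) := fun i hi =>
    ⟨u0 ▸ hum.monotone (Nat.zero_le i), uN ▸ hum.monotone hi⟩
  obtain ⟨θ, hθ0, hθ1, hθ⟩ : ∃ θ : ℝ, 0 < θ ∧ θ < 1 ∧ θ * (2 * Real.pi) < η := by
    refine ⟨min (1 / 2) (η / (4 * Real.pi)), by positivity, ?_, ?_⟩
    · exact (min_le_left _ _).trans_lt (by norm_num)
    · have h1 : min (1 / 2) (η / (4 * Real.pi)) ≤ η / (4 * Real.pi) := min_le_right _ _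
      have h2 : η / (4 * Real.pi) * (2 * Real.pi) = η / 2 := by
        field_simp
        ring
      nlinarith
  let s' : ℕ → ℝ := fun i => (1 - θ) * s i + θ * u i
  have hs' : ∀ i, s' i < s' (i + 1) := by
    intro i
    have h1 := hs (Nat.le_succ i)
    have h2 := hu i
    simp only [s']
    nlinarith
  have hcl : ∀ i ≤ N, |s' i - s i| < η := by
    intro i hi
    have e1 : s' i - s i = θ * (u i - s i) := by
      simp only [s']
      ring
    rw [e1, abs_mul, abs_of_pos hθ0]
    refine lt_of_le_of_lt (mul_le_mul_of_nonneg_left ?_ hθ0.le) hθ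
    rw [abs_le]
    constructor
    · linarith [(hur i hi).1, (hsr i hi).2]
    · linarith [(hur i hi).2, (hsr i hi).1]
  have hs'm : StrictMono s' := strictMono_nat_of_lt_succ hs'
  have s'0 : s' 0 = 0 := by simp [s', s0, u0]
  have s'k : s' k = Real.pi := by simp only [s', sk, uk]; ring
  have s'N : s' N = 2 * Real.pi := by simp only [s', sN, uN]; ring
  refine ⟨s', fun i _ => hs' i, s'0, s'k, s'N, fun i hi t ht => ?_⟩
  have h1 := hsr i hi.le
  have h2 := hsr (i + 1) hi
  have h12 := hs (Nat.le_succ i)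
  have ht0 : t ∈ Icc 0 (2 * Real.pi) := by
    constructor
    · rw [← s'0]
      exact (hs'm.monotone (Nat.zero_le i)).trans ht.1
    · rw [← s'N]
      exact ht.2.trans (hs'm.monotone hi)
  have c1 := abs_lt.1 (hcl i hi.le)
  have c2 := abs_lt.1 (hcl (i + 1) hi)
  -- the closest point of the interval
  obtain ⟨t', ht', htt⟩ : ∃ t' ∈ Icc (s i) (s (i + 1)), |t - t'| < η := by
    rcases lt_or_ge t (s i) with h | h
    · exact ⟨s i, ⟨le_rfl, h12⟩, by rw [abs_lt]; constructor <;> linarith [ht.1, ht.2]⟩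
    · rcases lt_or_ge (s (i + 1)) t with h' | h'
      · exact ⟨s (i + 1), ⟨h12, le_rfl⟩, by rw [abs_lt]; constructor <;> linarith [ht.1, ht.2]⟩
      · exact ⟨t, ⟨h, h'⟩, by simpa using hη⟩
  have ht'0 : t' ∈ Icc 0 (2 * Real.pi) := ⟨h1.1.trans ht'.1, ht'.2.trans h2.2⟩
  have h3 := huc t' ht'0 t ht0 (by rw [Real.dist_eq, abs_sub_comm]; exact htt)
  calc dist (δ * pt (p i)) (g t) ≤ dist (δ * pt (p i)) (g t') + dist (g t') (g t) :=
        dist_triangle _ _ _
    _ < ε + ε' := add_lt_add (hd i hi t' ht') h3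

/-- The reparametrization. -/
theorem Close.tau {g : ℝ → ℂ} (hg : Continuous g) {δ : ℝ} (hδ : 0 < δ) {N k : ℕ}
    {p : ZMod N → ℤ × ℤ} (hp : ∀ i, Adj (p i) (p (i + 1)))
    {ε : ℝ} (h : Close g δ N k p ε) (hk : 0 < k) (hkN : k < N) {ε' : ℝ} (hε' : 0 < ε') :
    ∃ τ : ℝ → ℝ, Continuous τ ∧ Monotone τ ∧ τ 0 = -1 / 2 ∧ τ Real.pi = k - 1 / 2 ∧
      τ (2 * Real.pi) = N - 1 / 2 ∧
      ∀ t ∈ Icc 0 (2 * Real.pi), dist (δ * curve p (τ t)) (g t) < ε + ε' + δ := by
  obtain ⟨s, hs, s0, sk, sN, hd⟩ := h.strict hg hk hkN hε'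
  have hsm : ∀ i j, i ≤ j → j ≤ N → s i ≤ s j := by
    intro i j hij hj
    induction j, hij using Nat.le_induction with
    | base => exact le_rfl
    | succ j hij ih => exact (ih (by omega)).trans (hs j (by omega)).le
  let f : ℕ → ℝ → ℝ := fun j t => max 0 (min 1 ((t - s j) / (s (j + 1) - s j)))
  have hf1 : ∀ j < N, ∀ t, s (j + 1) ≤ t → f j t = 1 := by
    intro j hj t ht
    have h1 := sub_pos.2 (hs j hj)
    have : 1 ≤ (t - s j) / (s (j + 1) - s j) := by
      rw [le_div_iff₀ h1]
      linarith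
    simp only [f, min_eq_left this]
    exact max_eq_right zero_le_one
  have hf0 : ∀ j < N, ∀ t, t ≤ s j → f j t = 0 := by
    intro j hj t ht
    have h1 := sub_pos.2 (hs j hj)
    have : (t - s j) / (s (j + 1) - s j) ≤ 0 := div_nonpos_of_nonpos_of_nonneg (by linarith) h1.le
    simp only [f]
    exact max_eq_left ((min_le_right _ _).trans this)
  have hfr : ∀ j t, f j t ∈ Icc (0 : ℝ) 1 := fun j t =>
    ⟨le_max_left _ _, max_le zero_le_one (min_le_left _ _)⟩
  let τ : ℝ → ℝ := fun t => -1 / 2 + ∑ j ∈ Finset.range N, f j t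
  have hval : ∀ i < N, ∀ t ∈ Icc (s i) (s (i + 1)), τ t = -1 / 2 + i + f i t := by
    intro i hi t ht
    have e1 : ∑ j ∈ Finset.range N, f j t = ∑ j ∈ Finset.range (i + 1), f j t := by
      symm
      refine Finset.sum_subset (Finset.range_mono hi) fun j hj1 hj2 => ?_
      rw [Finset.mem_range] at hj1 hj2
      exact hf0 j hj1 t (ht.2.trans (hsm _ _ (by omega) hj1.le))
    have e2 : ∑ j ∈ Finset.range i, f j t = i := by
      have : ∀ j ∈ Finset.range i, f j t = 1 := by
        intro j hj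
        rw [Finset.mem_range] at hj
        exact hf1 j (by omega) t ((hsm _ _ (by omega) hi.le).trans ht.1)
      rw [Finset.sum_congr rfl this]
      simp
    simp only [τ]
    rw [e1, Finset.sum_range_succ, e2]
    ring
  have hat : ∀ i ≤ N, τ (s i) = i - 1 / 2 := by
    intro i hi
    rcases Nat.eq_zero_or_pos i with h | h
    · subst h
      rw [hval 0 (by omega) (s 0) ⟨le_rfl, (hs 0 (by omega)).le⟩, hf0 0 (by omega) _ le_rfl]
      push_cast
      ring
    · obtain ⟨j, rfl⟩ : ∃ j, i = j + 1 := ⟨i - 1, by omega⟩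
      rw [hval j (by omega) (s (j + 1)) ⟨(hs j (by omega)).le, le_rfl⟩, hf1 j (by omega) _ le_rfl]
      push_cast
      ring
  refine ⟨τ, ?_, ?_, ?_, ?_, ?_, ?_⟩
  · refine continuous_const.add (continuous_finsetSum _ fun j _ => ?_)
    exact continuous_const.max (continuous_const.min ((continuous_id.sub continuous_const).div_const _))
  · intro a b hab
    refine add_le_add le_rfl (Finset.sum_le_sum fun j hj => ?_)
    have h1 := sub_pos.2 (hs j (Finset.mem_range.1 hj))
    exact max_le_max le_rfl (min_le_min le_rfl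
      (div_le_div_of_nonneg_right (by linarith) h1.le))
  · have := hat 0 (by omega)
    rw [s0] at this
    rw [this]
    push_cast
    ring
  · rw [← sk]
    exact hat k hkN.le
  · rw [← sN]
    exact hat N le_rfl
  · intro t ht
    -- the interval which contains `t`
    obtain ⟨i, hi, hti⟩ : ∃ i < N, t ∈ Icc (s i) (s (i + 1)) := by
      by_contra hno
      push Not at hno
      have : ∀ i ≤ N, s i ≤ t := by
        intro i
        induction i with
        | zero => intro _; rw [s0]; exact ht.1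
        | succ j ih =>
          intro hj
          by_contra h
          exact hno j (by omega) ⟨ih (by omega), (not_le.1 h).le⟩
      have h1 := this N le_rfl
      have h2 : t = s N := le_antisymm (sN ▸ ht.2) h1
      have hN : N - 1 + 1 = N := by omega
      refine hno (N - 1) (by omega) ⟨this (N - 1) (by omega), ?_⟩
      rw [hN, h2]
    have hτ := hval i hi t hti
    have h1 := hfr i t
    have hd1 := dist_curve p hp i (τ t) (by rw [hτ]; push_cast; linarith [h1.1])
      (by rw [hτ]; push_cast; linarith [h1.2])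
    rw [Int.cast_natCast] at hd1
    have e2 : dist ((δ : ℂ) * curve p (τ t)) (δ * pt (p i)) ≤ δ * (1 / 2) := by
      rw [Complex.dist_eq, ← mul_sub, norm_mul, Complex.norm_real, Real.norm_eq_abs,
        abs_of_pos hδ, ← Complex.dist_eq]
      exact mul_le_mul_of_nonneg_left hd1 hδ.le
    calc dist ((δ : ℂ) * curve p (τ t)) (g t)
        ≤ dist ((δ : ℂ) * curve p (τ t)) (δ * pt (p i)) + dist (δ * pt (p i)) (g t) :=
          dist_triangle _ _ _
      _ < ε + ε' + δ := by linarith [hd i hi t hti]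

end Vale.Agent.P153.H212
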