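import Vale.Agent.P153.H212.Lat

/-!
P153, second form of the final statements: domains, heights and the field.
-/

set_option autoImplicit false

namespace Vale.Agent.P153.H212

open MeasureTheory ProbabilityTheory Filter Topology Set Complex
open Vale.Agent.P153.R2

open Classical in
/-- The triangle with the set of corners `t`. -/
noncomputable def tri (t : Finset (ℤ × ℤ)) : Final.Tri :=
  if h : ∃ T, Final.corners T = t then h.choose else default

open Classical in
/-- The set of triangles in the first form. -/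
noncomputable def old (S : Finset (Finset (ℤ × ℤ))) : Finset Final.Tri := S.image tri

/-- All elements of `S` are triangles. -/
def Tris (S : Finset (Finset (ℤ × ℤ))) : Prop :=
  ∀ t ∈ S, t.card = 3 ∧ (t : Set (ℤ × ℤ)).Pairwise Adj

theorem corners_tri {t : Finset (ℤ × ℤ)} (h3 : t.card = 3)
    (hp : (t : Set (ℤ × ℤ)).Pairwise Adj) : Final.corners (tri t) = t := by
  have h := exists_tri h3 hp
  rw [tri, dif_pos h]
  exact h.choose_spec

theorem mem_old {S : Finset (Finset (ℤ × ℤ))} (hS : Tris S) (T : Final.Tri) :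
    T ∈ old S ↔ Final.corners T ∈ S := by
  classical
  rw [old, Finset.mem_image]
  constructor
  · rintro ⟨t, ht, rfl⟩
    rw [corners_tri (hS t ht).1 (hS t ht).2]
    exact ht
  · intro h
    exact ⟨_, h, corners_inj (corners_tri (hS _ h).1 (hS _ h).2)⟩

theorem exu_old {S : Finset (Finset (ℤ × ℤ))} (hS : Tris S) (a b : ℤ × ℤ) :
    (∃! t, t ∈ S ∧ a ∈ t ∧ b ∈ t) ↔
      ∃! t, t ∈ old S ∧ a ∈ Final.corners t ∧ b ∈ Final.corners t := by
  constructor
  · rintro ⟨t, ⟨h1, h2, h3⟩, h4⟩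
    have e := corners_tri (hS t h1).1 (hS t h1).2
    refine ⟨tri t, ⟨(mem_old hS _).2 (e.symm ▸ h1), e.symm ▸ h2, e.symm ▸ h3⟩, ?_⟩
    rintro T ⟨k1, k2, k3⟩
    refine corners_inj ?_
    rw [e]
    exact h4 _ ⟨(mem_old hS T).1 k1, k2, k3⟩
  · rintro ⟨T, ⟨h1, h2, h3⟩, h4⟩
    refine ⟨Final.corners T, ⟨(mem_old hS T).1 h1, h2, h3⟩, ?_⟩
    rintro t ⟨k1, k2, k3⟩
    have e := corners_tri (hS t k1).1 (hS t k1).2
    have := h4 (tri t) ⟨(mem_old hS _).2 (e.symm ▸ k1), e.symm ▸ k2, e.symm ▸ k3⟩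
    rw [← e, this]

theorem verts_old {S : Finset (Finset (ℤ × ℤ))} (hS : Tris S) :
    Final.verts (old S) = verts S := by
  ext v
  rw [Final.verts, verts, Finset.mem_biUnion, Finset.mem_biUnion]
  constructor
  · rintro ⟨T, h1, h2⟩
    exact ⟨_, (mem_old hS T).1 h1, h2⟩
  · rintro ⟨t, h1, h2⟩
    have e := corners_tri (hS t h1).1 (hS t h1).2
    exact ⟨tri t, (mem_old hS _).2 (e.symm ▸ h1), e.symm ▸ h2⟩

theorem exu {α : Type} {S : Finset α} {s t : α} (h : s ≠ t) :
    (∃! x, x ∈ S ∧ (x = s ∨ x = t)) ↔ ¬ (s ∈ S ↔ t ∈ S) := by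
  constructor
  · rintro ⟨x, ⟨h1, h2⟩, h3⟩ h4
    rcases h2 with rfl | rfl
    · exact h (h3 t ⟨h4.1 h1, Or.inr rfl⟩).symm
    · exact h (h3 s ⟨h4.2 h1, Or.inl rfl⟩)
  · intro h4
    by_cases hs : s ∈ S
    · have ht : t ∉ S := fun ht => h4 ⟨fun _ => ht, fun _ => hs⟩
      refine ⟨s, ⟨hs, Or.inl rfl⟩, ?_⟩
      rintro y ⟨h5, rfl | rfl⟩
      · rfl
      · exact absurd h5 ht
    · have ht : t ∈ S := by
        by_contra ht
        exact h4 ⟨fun h => absurd h hs, fun h => absurd h ht⟩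
      refine ⟨t, ⟨ht, Or.inr rfl⟩, ?_⟩
      rintro y ⟨h5, rfl | rfl⟩
      · exact absurd h5 hs
      · rfl

theorem cor1 (v : ℤ × ℤ) (t : (ℤ × ℤ) × Bool) :
    (v ∈ Final.corners t ∧ v + (1, 0) ∈ Final.corners t) ↔
      (t = (v, false) ∨ t = (v - (0, 1), true)) := by
  obtain ⟨⟨a, b⟩, c⟩ := t
  obtain ⟨x, y⟩ := v
  cases c <;> simp [Final.corners] <;> omega

theorem cor2 (v : ℤ × ℤ) (t : (ℤ × ℤ) × Bool) :
    (v ∈ Final.corners t ∧ v + (0, 1) ∈ Final.corners t) ↔
      (t = (v, false) ∨ t = (v - (1, 0), true)) := by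
  obtain ⟨⟨a, b⟩, c⟩ := t
  obtain ⟨x, y⟩ := v
  cases c <;> simp [Final.corners] <;> omega

theorem cor3 (v : ℤ × ℤ) (t : (ℤ × ℤ) × Bool) :
    (v + (1, 0) ∈ Final.corners t ∧ v + (0, 1) ∈ Final.corners t) ↔
      (t = (v, false) ∨ t = (v, true)) := by
  obtain ⟨⟨a, b⟩, c⟩ := t
  obtain ⟨x, y⟩ := v
  cases c <;> simp [Final.corners] <;> omega

theorem isPolygon {n : ℕ} {p : ZMod n → ℤ × ℤ} {S : Finset (Finset (ℤ × ℤ))}
    (h : Encloses p S) : Final.IsPolygon p :=
  ⟨h.1, h.2.1, fun i => (adj_iff _ _).1 (h.2.2.1 i)⟩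

theorem encl_old {n : ℕ} {p : ZMod n → ℤ × ℤ} {S : Finset (Finset (ℤ × ℤ))}
    (h : Encloses p S) : Final.Encloses p (old S) := by
  have hS : Tris S := h.2.2.2.1
  have key : ∀ a b, Adj a b → (Final.IsEdge p a b ↔
      ∃! t, t ∈ old S ∧ a ∈ Final.corners t ∧ b ∈ Final.corners t) := by
    intro a b hab
    rw [← exu_old hS, ← h.2.2.2.2 a b hab, Final.IsEdge]
    simp only [Sym2.eq_iff]
  intro v
  refine ⟨?_, ?_, ?_⟩
  · have ha : Adj v (v + (1, 0)) := by rw [adj_int]; simp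
    rw [Final.Side, key _ _ ha]
    simp only [cor1]
    exact exu (by simp)
  · have ha : Adj v (v + (0, 1)) := by rw [adj_int]; simp
    rw [Final.Side, key _ _ ha]
    simp only [cor2]
    exact exu (by simp)
  · have ha : Adj (v + (1, 0)) (v + (0, 1)) := by rw [adj_int]; simp
    rw [Final.Side, key _ _ ha]
    simp only [cor3]
    exact exu (by simp)

/-! ### Heights -/

theorem step_iff {a b : ℤ} (ha : Odd a) (hb : Odd b) :
    |a - b| ∈ ({0, 2} : Set ℤ) ↔ |a - b| ≤ 2 := by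
  obtain ⟨x, rfl⟩ := ha
  obtain ⟨y, rfl⟩ := hb
  simp only [mem_insert_iff, mem_singleton_iff]
  constructor
  · rintro (h | h) <;> omega
  · intro h
    rw [abs_le] at h
    have h1 : x - y = -1 ∨ x - y = 0 ∨ x - y = 1 := by omega
    rcases h1 with h1 | h1 | h1
    · right
      have : 2 * x + 1 - (2 * y + 1) = -2 := by omega
      rw [this]; rfl
    · left
      have : 2 * x + 1 - (2 * y + 1) = 0 := by omega
      rw [this]; rfl
    · right
      have : 2 * x + 1 - (2 * y + 1) = 2 := by omega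
      rw [this]; rfl

theorem heights_arcs {n : ℕ} {p : ZMod n → ℤ × ℤ} {S : Finset (Finset (ℤ × ℤ))} (hS : Tris S)
    (k : ℕ) : Heights p S (arcs k) = Final.Heights p k (old S) := by
  ext h
  simp only [Heights, Final.Heights, verts_old hS, mem_ofPred_eq]
  refine and_congr_right fun h1 => and_congr ?_ (and_congr_left fun _ => ?_)
  · refine forall_congr' fun i => ?_
    by_cases hi : i.val < k
    · simp [arcs, hi]
    · simp [arcs, hi]
  · refine forall₂_congr fun v hv => forall₂_congr fun w hw => ?_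
    rw [adj_iff, step_iff (h1 v hv) (h1 w hw)]

theorem law_arcs {n : ℕ} {p : ZMod n → ℤ × ℤ} {S : Finset (Finset (ℤ × ℤ))} (hS : Tris S)
    (k : ℕ) : law p S (arcs k) = Final.law p k (old S) := by
  rw [law, heights_arcs hS, Final.law, Final.unif]

/-! ### The region and the extension -/

/-- The identification of the planes. -/
noncomputable abbrev e : ℂ ≃L[ℝ] (ℝ × ℝ) := Complex.equivRealProdCLM

theorem e_apply (z : ℂ) : e z = (z.re, z.im) := rfl

theorem e_symm (z : ℝ × ℝ) : e.symm z = Final.toC z := rfl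

theorem e_pt (v : ℤ × ℤ) : e (pt v) = Final.pt v := by
  rw [← toC_pt, ← e_symm, ContinuousLinearEquiv.apply_symm_apply]

theorem mem_region {S : Finset (Finset (ℤ × ℤ))} (hS : Tris S) (δ : ℝ) (z : ℂ) :
    z ∈ region δ S ↔ e z ∈ Final.region δ (old S) := by
  have hc : ∀ t : Set (ℤ × ℤ), (z ∈ convexHull ℝ ((fun v => (δ : ℂ) * pt v) '' t) ↔
      e z ∈ convexHull ℝ ((fun v => δ • Final.pt v) '' t)) := by
    intro t
    have h1 : (fun v => δ • Final.pt v) '' t = e '' ((fun v => (δ : ℂ) * pt v) '' t) := by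
      rw [image_image]
      refine image_congr fun v _ => ?_
      rw [← e_pt, ← map_smul]
      congr 1
    have h2 : convexHull ℝ (e '' ((fun v => (δ : ℂ) * pt v) '' t)) =
        e '' convexHull ℝ ((fun v => (δ : ℂ) * pt v) '' t) :=
      (LinearMap.image_convexHull (e : ℂ →ₗ[ℝ] ℝ × ℝ) _).symm
    rw [h1, h2]
    exact (e.injective.mem_set_image).symm
  simp only [region, mem_iUnion, exists_prop, Final.region, mem_ofPred_eq]
  constructor
  · rintro ⟨t, h1, h2⟩
    have ee := corners_tri (hS t h1).1 (hS t h1).2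
    refine ⟨tri t, (mem_old hS _).2 (ee.symm ▸ h1), ?_⟩
    rw [ee]
    exact (hc _).1 h2
  · rintro ⟨T, h1, h2⟩
    exact ⟨_, (mem_old hS T).1 h1, (hc _).2 h2⟩

theorem ext_eq (h : ℤ × ℤ → ℤ) (z : ℂ) : ext h z = Final.interp h (e z) := by
  have h3 : √3 ≠ 0 := by positivity
  rw [ext, Final.interp]
  refine finsum_congr fun v => ?_
  congr 1
  rw [hat, Final.hat, e_apply]
  have e1 : (z - pt v).re - (z - pt v).im / √3 = z.re - z.im / √3 - v.1 := by
    rw [Complex.sub_re, Complex.sub_im, pt_re, pt_im]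
    field_simp
    ring
  have e2 : 2 * (z - pt v).im / √3 = 2 * z.im / √3 - v.2 := by
    rw [Complex.sub_im, pt_im]
    field_simp
  have e3 : (z - pt v).re + (z - pt v).im / √3 =
      (z.re - z.im / √3 - v.1) + (2 * z.im / √3 - v.2) := by
    rw [Complex.sub_re, Complex.sub_im, pt_re, pt_im]
    field_simp
    ring
  rw [e1, e2, e3]

theorem ext_div (h : ℤ × ℤ → ℤ) (z : ℂ) (δ : ℝ) :
    ext h (z / δ) = Final.interp h ((e z).1 / δ, (e z).2 / δ) := by
  rw [ext_eq]
  congr 1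
  rw [e_apply, e_apply]
  simp

theorem measurableSet_region (S : Finset (Finset (ℤ × ℤ))) (δ : ℝ) :
    MeasurableSet (region δ S) := by
  refine IsClosed.measurableSet ?_
  refine Set.Finite.isClosed_biUnion S.finite_toSet fun t _ => ?_
  exact ((t.finite_toSet.image _).isCompact_convexHull (𝕜 := ℝ)).isClosed

theorem integral_e (f : ℝ × ℝ → ℝ) : ∫ z : ℂ, f (e z) = ∫ w : ℝ × ℝ, f w :=
  Complex.volume_preserving_equiv_real_prod.integral_comp
    Complex.measurableEquivRealProd.measurableEmbedding f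

theorem fld_eq {S : Finset (Finset (ℤ × ℤ))} (hS : Tris S) (δ : ℝ) (φ : ℂ → ℝ) (h : ℤ × ℤ → ℤ) :
    fld S δ φ h = Final.fld (old S) δ (fun w => φ (e.symm w)) h := by
  classical
  rw [fld, Final.fld, ← integral_indicator (measurableSet_region S δ), ← integral_e]
  refine integral_congr_ae (ae_of_all _ fun z => ?_)
  simp only [Set.indicator, ContinuousLinearEquiv.symm_apply_apply]
  by_cases hz : z ∈ region δ S
  · rw [if_pos hz, if_pos ((mem_region hS δ z).1 hz), ext_div]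
  · rw [if_neg hz, if_neg (fun h => hz ((mem_region hS δ z).2 h)), zero_mul]

end Vale.Agent.P153.H212
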